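import Vale.Agent.P260Z.Ob.Cert.Cyc

/-!
# P260, certificate: one block of the tower, and the top block
-/

noncomputable section

namespace Vale.Agent.P260Z.Ob.Cyc

open Set Vale.Agent.P215Z Vale.Agent.P215Z.Cert

variable {G : Type} [Group G] {N : ℕ} {τ : Pt → Pt → G} {K : Set Pt}

theorem Cy4.congr {S : Fin 4 → Pt × Pt} {z z' : G} (h : Cy4 N τ S z) (e : z = z') :
    Cy4 N τ S z' := e ▸ h

/-- the four base faces of the cube of side three with lower corner `o` -/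
def fB (o : Pt) (s : Fin 4) : Pt × Pt :=
  (fun j => if j = ![2, 0, 2, 0] s then o j + fh s else o j,
    fun j => if j = ![2, 0, 2, 0] s then o j + fh s else o j + 3)

def fT : Fin 4 → Pt × Pt := fB ![2, 7, 10, 0]
def fF : Fin 4 → Pt × Pt := fB ![2, 7, 6, 0]

/-- four boxes around the stem of the block -/
def dn : Fin 4 → Pt × Pt :=
  ![bx 7 7 (-2) 10 8 (-1), bx 9 7 (-2) 10 10 (-1), bx 7 9 (-2) 10 10 (-1), bx 7 7 (-2) 8 10 (-1)]

/-- four boxes around the stem of the next block -/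
def up : Fin 4 → Pt × Pt :=
  ![bx 7 7 16 10 8 17, bx 9 7 16 10 10 17, bx 7 9 16 10 10 17, bx 7 7 16 8 10 17]

def k0 : Pt × Pt := bx 0 0 (-2) 1 17 18
def k2 : Pt × Pt := bx 0 0 (-2) 17 1 18
def k4 : Pt × Pt := bx 0 0 (-2) 17 8 1
def k5 : Pt × Pt := bx 0 0 14 8 17 18
def k6 : Pt × Pt := bx 0 0 14 17 8 18
def k8 : Pt × Pt := bx 0 4 2 17 17 3
def k9 : Pt × Pt := bx 0 7 (-2) 2 10 18
def k10 : Pt × Pt := bx 0 7 (-2) 8 10 6
def k12 : Pt × Pt := bx 0 7 9 8 10 10
def k13 : Pt × Pt := bx 0 7 9 11 8 10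
def k14 : Pt × Pt := bx 0 7 13 8 10 18
def k16 : Pt × Pt := bx 0 9 (-2) 17 17 3
def k18 : Pt × Pt := bx 0 9 4 17 17 5
def k20 : Pt × Pt := bx 0 9 13 11 10 18
def k21 : Pt × Pt := bx 0 9 14 17 17 18
def k23 : Pt × Pt := bx 0 16 4 17 17 18
def k24 : Pt × Pt := bx 5 7 (-2) 8 10 18
def k25 : Pt × Pt := bx 5 7 2 11 8 18
def k26 : Pt × Pt := bx 5 9 4 11 10 18
def k27 : Pt × Pt := bx 9 0 (-2) 17 17 5
def k28 : Pt × Pt := bx 9 0 14 17 17 18
def k29 : Pt × Pt := bx 9 7 (-2) 11 10 18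
def k31 : Pt × Pt := bx 16 0 (-2) 17 17 18

def kL : List (Pt × Pt) :=
  [k0, k2, k4, k5, k6, k8, k9, k10, k12, k13, k14, k16,
    k18, k20, k21, k23, k24, k25, k26, k27, k28, k29, k31]

/-- the loop around the stem is the commutator of the next one with the meridian of the ring -/
theorem block (h : FlatOn K τ) (hK : ∀ B ∈ kL, cB N B ⊆ K) : ∃ a b u g : G,
    Cy4 N τ fT a ∧ Cy4 N τ fF b ∧ Cy4 N τ up u ∧ Cy4 N τ dn g ∧
      ∃ a' b' u', Cj a a' ∧ Cj b b' ∧ Cj u u' ∧ Cj (cm u' (a' * b')) g := by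
  obtain ⟨T4, h4⟩ := root h k4 (hK _ (by decide))
  obtain ⟨T24, h24, r4_24⟩ := grow h h4 k24 (hK _ (by decide)) (by decide)
  obtain ⟨T26, h26, r24_26⟩ := grow h h24 k26 (hK _ (by decide)) (by decide)
  obtain ⟨T13, h13, r24_13⟩ := grow h h24 k13 (hK _ (by decide)) (by decide)
  obtain ⟨T9, h9, r4_9⟩ := grow h h4 k9 (hK _ (by decide)) (by decide)
  obtain ⟨T21, h21, r26_21⟩ := grow h h26 k21 (hK _ (by decide)) (by decide)
  obtain ⟨T20, h20, r9_20⟩ := grow h h9 k20 (hK _ (by decide)) (by decide)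
  obtain ⟨T10, h10, r24_10⟩ := grow h h24 k10 (hK _ (by decide)) (by decide)
  obtain ⟨T29, h29, r21_29⟩ := grow h h21 k29 (hK _ (by decide)) (by decide)
  obtain ⟨T2, h2, r4_2⟩ := grow h h4 k2 (hK _ (by decide)) (by decide)
  obtain ⟨T5, h5, r20_5⟩ := grow h h20 k5 (hK _ (by decide)) (by decide)
  obtain ⟨T16, h16, r24_16⟩ := grow h h24 k16 (hK _ (by decide)) (by decide)
  obtain ⟨T8, h8, r16_8⟩ := grow h h16 k8 (hK _ (by decide)) (by decide)
  obtain ⟨T14, h14, r26_14⟩ := grow h h26 k14 (hK _ (by decide)) (by decide)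
  obtain ⟨T18, h18, r26_18⟩ := grow h h26 k18 (hK _ (by decide)) (by decide)
  obtain ⟨T0, h0, r21_0⟩ := grow h h21 k0 (hK _ (by decide)) (by decide)
  obtain ⟨T25, h25, r13_25⟩ := grow h h13 k25 (hK _ (by decide)) (by decide)
  obtain ⟨T6, h6, r0_6⟩ := grow h h0 k6 (hK _ (by decide)) (by decide)
  obtain ⟨T31, h31, r6_31⟩ := grow h h6 k31 (hK _ (by decide)) (by decide)
  obtain ⟨T12, h12, r9_12⟩ := grow h h9 k12 (hK _ (by decide)) (by decide)
  obtain ⟨T23, h23, r18_23⟩ := grow h h18 k23 (hK _ (by decide)) (by decide)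
  obtain ⟨T27, h27, r26_27⟩ := grow h h26 k27 (hK _ (by decide)) (by decide)
  obtain ⟨T28, h28, r2_28⟩ := grow h h2 k28 (hK _ (by decide)) (by decide)
  obtain ⟨x1, r25_29⟩ := gen h25 h29
  obtain ⟨x2, r9_21⟩ := gen h9 h21
  obtain ⟨x3, r12_13⟩ := gen h12 h13
  have r12_24 := tri h12 h24 r12_13 r24_13.symm (by decide) (w'' := x3) (by group)
  have r24_14 := tri h24 h14 r24_26 r26_14 (by decide) (w'' := 1) (by group)
  have r21_14 := tri h21 h14 r26_21.symm r26_14 (by decide) (w'' := 1) (by group)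
  have r14_9 := tri h14 h9 r21_14.symm r9_21.symm (by decide) (w'' := x2⁻¹) (by group)
  have r10_4 := tri h10 h4 r24_10.symm r4_24.symm (by decide) (w'' := 1) (by group)
  have r10_9 := tri h10 h9 r10_4 r4_9 (by decide) (w'' := 1) (by group)
  have r14_0 := tri h14 h0 r21_14.symm r21_0 (by decide) (w'' := 1) (by group)
  have r14_6 := tri h14 h6 r14_0 r0_6 (by decide) (w'' := 1) (by group)
  have r25_24 := tri h25 h24 r13_25.symm r24_13.symm (by decide) (w'' := 1) (by group)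
  have r14_25 := tri h14 h25 r24_14.symm r25_24.symm (by decide) (w'' := 1) (by group)
  have r6_25 := tri h6 h25 r14_6.symm r14_25 (by decide) (w'' := 1) (by group)
  have r6_29 := tri h6 h29 r6_25 r25_29 (by decide) (w'' := x1) (by group)
  have r9_0 := tri h9 h0 r9_21 r21_0 (by decide) (w'' := x2) (by group)
  have r4_0 := tri h4 h0 r4_9 r9_0 (by decide) (w'' := x2) (by group)
  have r2_0 := tri h2 h0 r4_2.symm r4_0 (by decide) (w'' := x2) (by group)
  have r6_2 := tri h6 h2 r0_6.symm r2_0.symm (by decide) (w'' := x2⁻¹) (by group)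
  have r28_6 := tri h28 h6 r2_28.symm r6_2.symm (by decide) (w'' := x2) (by group)
  have r29_28 := tri h29 h28 r6_29.symm r28_6.symm (by decide) (w'' := x1⁻¹ * x2⁻¹) (by group)
  have r28_21 := tri h28 h21 r29_28.symm r21_29.symm (by decide) (w'' := x2 * x1) (by group)
  have r2_31 := tri h2 h31 r6_2.symm r6_31 (by decide) (w'' := x2) (by group)
  have r31_28 := tri h31 h28 r2_31.symm r2_28 (by decide) (w'' := x2⁻¹) (by group)
  have r21_31 := tri h21 h31 r28_21.symm r31_28.symm (by decide) (w'' := x1⁻¹) (by group)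
  have r0_10 := tri h0 h10 r4_0.symm r10_4.symm (by decide) (w'' := x2⁻¹) (by group)
  have r10_26 := tri h10 h26 r24_10.symm r24_26 (by decide) (w'' := 1) (by group)
  have r18_10 := tri h18 h10 r26_18.symm r10_26.symm (by decide) (w'' := 1) (by group)
  have r0_18 := tri h0 h18 r0_10 r18_10.symm (by decide) (w'' := x2⁻¹) (by group)
  have r0_23 := tri h0 h23 r0_18 r18_23 (by decide) (w'' := x2⁻¹) (by group)
  have r23_21 := tri h23 h21 r0_23.symm r21_0.symm (by decide) (w'' := x2) (by group)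
  have r31_23 := tri h31 h23 r21_31.symm r23_21.symm (by decide) (w'' := x1 * x2⁻¹) (by group)
  have r18_27 := tri h18 h27 r26_18.symm r26_27 (by decide) (w'' := 1) (by group)
  have r27_23 := tri h27 h23 r18_27.symm r18_23 (by decide) (w'' := 1) (by group)
  have r31_27 := tri h31 h27 r31_23 r27_23.symm (by decide) (w'' := x1 * x2⁻¹) (by group)
  have r31_4 := tri h31 h4 r2_31.symm r4_2.symm (by decide) (w'' := x2⁻¹) (by group)
  have r27_4 := tri h27 h4 r31_27.symm r31_4 (by decide) (w'' := x2 * x1⁻¹ * x2⁻¹) (by group)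
  have r29_26 := tri h29 h26 r21_29.symm r26_21.symm (by decide) (w'' := 1) (by group)
  have r29_27 := tri h29 h27 r29_26 r26_27 (by decide) (w'' := 1) (by group)
  have r8_24 := tri h8 h24 r16_8.symm r24_16.symm (by decide) (w'' := 1) (by group)
  have r8_25 := tri h8 h25 r8_24 r25_24.symm (by decide) (w'' := 1) (by group)
  have r8_29 := tri h8 h29 r8_25 r25_29 (by decide) (w'' := x1) (by group)
  have r27_8 := tri h27 h8 r29_27.symm r8_29.symm (by decide) (w'' := x1⁻¹) (by group)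
  have r27_16 := tri h27 h16 r27_8 r16_8.symm (by decide) (w'' := x1⁻¹) (by group)
  have r9_5 := tri h9 h5 r9_20 r20_5 (by decide) (w'' := 1) (by group)
  have r5_21 := tri h5 h21 r9_5.symm r9_21 (by decide) (w'' := x2) (by group)
  have r5_26 := tri h5 h26 r5_21 r26_21.symm (by decide) (w'' := x2) (by group)
  have r9_6 := tri h9 h6 r9_0 r0_6 (by decide) (w'' := x2) (by group)
  have r6_5 := tri h6 h5 r9_6.symm r9_5 (by decide) (w'' := x2⁻¹) (by group)
  have ca : Cy4 N τ fT (x3 * x2⁻¹) := (four h12 h24 h14 h9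
    r12_24 r24_14 r14_9 r9_12 (by decide)).congr (by group)
  have cb : Cy4 N τ fF (x3⁻¹) := (four h10 h24 h12 h9
    r24_10.symm r12_24.symm r9_12.symm r10_9.symm (by decide)).congr (by group)
  have cg : Cy4 N τ dn (x2 * x1 * x2⁻¹ * x1⁻¹) := (four h4 h27 h16 h24
    r27_4.symm r27_16 r24_16.symm r4_24.symm (by decide)).congr (by group)
  have cu : Cy4 N τ up (x1) := (four h6 h29 h26 h5
    r6_29 r29_26 r5_26.symm r6_5.symm (by decide)).congr (by group)
  exact ⟨_, _, _, _, ca, cb, cu, cg, x3 * x2⁻¹, x2 * x3⁻¹ * x2⁻¹, x1,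
    ⟨1, Or.inl (by group)⟩, ⟨x2, Or.inl (by group)⟩, ⟨1, Or.inl (by group)⟩,
    ⟨x2, Or.inl (by simp only [cm]; group)⟩⟩

def t0 : Pt × Pt := bx 0 0 (-2) 1 17 18
def t1 : Pt × Pt := bx 0 0 (-2) 8 17 5
def t2 : Pt × Pt := bx 0 0 (-2) 17 1 18
def t4 : Pt × Pt := bx 0 0 (-2) 17 8 1
def t5 : Pt × Pt := bx 0 0 14 17 17 18
def t7 : Pt × Pt := bx 0 7 (-2) 2 10 18
def t8 : Pt × Pt := bx 0 7 (-2) 8 10 6
def t10 : Pt × Pt := bx 0 7 9 17 10 10
def t11 : Pt × Pt := bx 0 7 13 17 10 18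
def t15 : Pt × Pt := bx 5 7 2 17 10 18
def t16 : Pt × Pt := bx 5 9 (-2) 17 10 18
def t17 : Pt × Pt := bx 9 0 (-2) 17 17 5
def t19 : Pt × Pt := bx 16 0 (-2) 17 17 18

def tL : List (Pt × Pt) :=
  [t0, t1, t2, t4, t5, t7, t8, t10, t11, t15, t16, t17, t19]

/-- in the top block the loop around the stem is the meridian of the ring -/
theorem top (h : FlatOn K τ) (hK : ∀ B ∈ tL, cB N B ⊆ K) : ∃ a b g : G,
    Cy4 N τ fT a ∧ Cy4 N τ fF b ∧ Cy4 N τ dn g ∧
      ∃ a' b', Cj a a' ∧ Cj b b' ∧ Cj (a' * b') g := by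
  obtain ⟨T4, h4⟩ := root h t4 (hK _ (by decide))
  obtain ⟨T2, h2, r4_2⟩ := grow h h4 t2 (hK _ (by decide)) (by decide)
  obtain ⟨T8, h8, r4_8⟩ := grow h h4 t8 (hK _ (by decide)) (by decide)
  obtain ⟨T7, h7, r4_7⟩ := grow h h4 t7 (hK _ (by decide)) (by decide)
  obtain ⟨T11, h11, r7_11⟩ := grow h h7 t11 (hK _ (by decide)) (by decide)
  obtain ⟨T19, h19, r4_19⟩ := grow h h4 t19 (hK _ (by decide)) (by decide)
  obtain ⟨T1, h1, r4_1⟩ := grow h h4 t1 (hK _ (by decide)) (by decide)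
  obtain ⟨T15, h15, r8_15⟩ := grow h h8 t15 (hK _ (by decide)) (by decide)
  obtain ⟨T16, h16, r15_16⟩ := grow h h15 t16 (hK _ (by decide)) (by decide)
  obtain ⟨T17, h17, r16_17⟩ := grow h h16 t17 (hK _ (by decide)) (by decide)
  obtain ⟨T0, h0, r1_0⟩ := grow h h1 t0 (hK _ (by decide)) (by decide)
  obtain ⟨T10, h10, r19_10⟩ := grow h h19 t10 (hK _ (by decide)) (by decide)
  obtain ⟨T5, h5, r2_5⟩ := grow h h2 t5 (hK _ (by decide)) (by decide)
  obtain ⟨x1, r4_17⟩ := gen h4 h17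
  obtain ⟨x2, r7_10⟩ := gen h7 h10
  have r15_17 := tri h15 h17 r15_16 r16_17 (by decide) (w'' := 1) (by group)
  have r19_17 := tri h19 h17 r4_19.symm r4_17 (by decide) (w'' := x1) (by group)
  have r15_19 := tri h15 h19 r15_17 r19_17.symm (by decide) (w'' := x1⁻¹) (by group)
  have r15_10 := tri h15 h10 r15_19 r19_10 (by decide) (w'' := x1⁻¹) (by group)
  have r2_19 := tri h2 h19 r4_2.symm r4_19 (by decide) (w'' := 1) (by group)
  have r19_5 := tri h19 h5 r2_19.symm r2_5 (by decide) (w'' := 1) (by group)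
  have r0_4 := tri h0 h4 r1_0.symm r4_1.symm (by decide) (w'' := 1) (by group)
  have r0_7 := tri h0 h7 r0_4 r4_7 (by decide) (w'' := 1) (by group)
  have r2_0 := tri h2 h0 r4_2.symm r0_4.symm (by decide) (w'' := 1) (by group)
  have r0_5 := tri h0 h5 r2_0.symm r2_5 (by decide) (w'' := 1) (by group)
  have r7_5 := tri h7 h5 r0_7.symm r0_5 (by decide) (w'' := 1) (by group)
  have r5_11 := tri h5 h11 r7_5.symm r7_11 (by decide) (w'' := 1) (by group)
  have r19_11 := tri h19 h11 r19_5 r5_11 (by decide) (w'' := 1) (by group)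
  have r15_11 := tri h15 h11 r15_19 r19_11 (by decide) (w'' := x1⁻¹) (by group)
  have r8_7 := tri h8 h7 r4_8.symm r4_7 (by decide) (w'' := 1) (by group)
  have r8_16 := tri h8 h16 r8_15 r15_16 (by decide) (w'' := 1) (by group)
  have ca : Cy4 N τ fT (x2) := (four h10 h15 h11 h7
    r15_10.symm r15_11 r7_11.symm r7_10 (by decide)).congr (by group)
  have cb : Cy4 N τ fF (x1⁻¹ * x2⁻¹) := (four h8 h15 h10 h7
    r8_15 r15_10 r7_10.symm r8_7.symm (by decide)).congr (by group)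
  have cg : Cy4 N τ dn (x1) := (four h4 h17 h16 h8
    r4_17 r16_17.symm r8_16.symm r4_8.symm (by decide)).congr (by group)
  exact ⟨_, _, _, ca, cb, cg, x2⁻¹, x2 * x1,
    ⟨1, Or.inr (by group)⟩, ⟨1, Or.inr (by group)⟩, ⟨1, Or.inl (by group)⟩⟩

end Vale.Agent.P260Z.Ob.Cyc
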