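import Vale.Agent.P215Z.Cert.Lead

/-!
# P260, certificate: cycles of four boxes, translations, leading terms up to sign
-/

noncomputable section

namespace Vale.Agent.P260Z.Ob.Cyc

open Set Vale.Agent.P215Z Vale.Agent.P215Z.Cert

variable {G : Type} [Group G] {N : ℕ} {τ : Pt → Pt → G} {K : Set Pt}

/-- conjugate, up to inversion -/
def Cj (x y : G) : Prop := ∃ c, y = c * x * c⁻¹ ∨ y = c * x⁻¹ * c⁻¹

theorem Cj.refl (x : G) : Cj x x := ⟨1, Or.inl (by group)⟩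

theorem Cj.symm {x y : G} (h : Cj x y) : Cj y x := by
  obtain ⟨c, rfl | rfl⟩ := h
  · exact ⟨c⁻¹, Or.inl (by group)⟩
  · exact ⟨c⁻¹, Or.inr (by group)⟩

theorem Cj.trans {x y z : G} (h : Cj x y) (h' : Cj y z) : Cj x z := by
  obtain ⟨c, rfl | rfl⟩ := h <;> obtain ⟨d, rfl | rfl⟩ := h'
  · exact ⟨d * c, Or.inl (by group)⟩
  · exact ⟨d * c, Or.inr (by group)⟩
  · exact ⟨d * c, Or.inr (by group)⟩
  · exact ⟨d * c, Or.inl (by group)⟩

/-- the product of the transitions around four boxes -/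
def Cy4 (N : ℕ) (τ : Pt → Pt → G) (S : Fin 4 → Pt × Pt) (z : G) : Prop :=
  ∃ (T : Fin 4 → Pt → G) (w : Fin 4 → G), (∀ s, Triv τ (cB N (S s)) (T s)) ∧
    (∀ s, Rel (cB N (S s)) (cB N (S (s + 1))) (T s) (T (s + 1)) (w s)) ∧ z = w 0 * w 1 * w 2 * w 3

theorem Cy4.holIs {S : Fin 4 → Pt × Pt} {z : G} (h : Cy4 N τ S z) :
    HolIs τ (fun s => cB N (S s)) z := by
  obtain ⟨T, w, h1, h2, rfl⟩ := h
  exact fun e x n hx => Around.hol h1 h2 hx

theorem Cy4.cj {S : Fin 4 → Pt × Pt} {z z' : G} (h : Cy4 N τ S z) (h' : Cy4 N τ S z')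
    (hm : ∀ s, Meet (S s) (S (s + 1)) (S (s + 1))) : Cj z z' := by
  obtain ⟨T, w, h1, h2, rfl⟩ := h
  obtain ⟨T', w', h1', h2', rfl⟩ := h'
  choose u hu using fun s => gen (h1' s) (h1 s)
  have key : ∀ s, w' s = u s * w s * (u (s + 1))⁻¹ := fun s => by
    obtain ⟨p, p1, p2, -⟩ := (hm s).point N
    have e1 := h2' s p p1 p2
    rw [hu s p p1 p1, hu (s + 1) p p2 p2, h2 s p p1 p2, ← mul_assoc, ← mul_assoc] at e1
    rw [mul_right_cancel e1, mul_inv_cancel_right]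
  refine ⟨u 0, Or.inl ?_⟩
  rw [key 0, key 1, key 2, key 3]
  show u 0 * w 0 * (u 1)⁻¹ * (u 1 * w 1 * (u 2)⁻¹) * (u 2 * w 2 * (u 3)⁻¹) *
    (u 3 * w 3 * (u 0)⁻¹) = _
  group

theorem four {S : Fin 4 → Pt × Pt} {A0 A1 A2 A3 : Pt × Pt} {T0 T1 T2 T3 : Pt → G}
    (h0 : Triv τ (cB N A0) T0) (h1 : Triv τ (cB N A1) T1) (h2 : Triv τ (cB N A2) T2)
    (h3 : Triv τ (cB N A3) T3) {w0 w1 w2 w3 : G} (r0 : Rel (cB N A0) (cB N A1) T0 T1 w0)
    (r1 : Rel (cB N A1) (cB N A2) T1 T2 w1) (r2 : Rel (cB N A2) (cB N A3) T2 T3 w2)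
    (r3 : Rel (cB N A3) (cB N A0) T3 T0 w3)
    (hs : SubB (S 0) A0 ∧ SubB (S 1) A1 ∧ SubB (S 2) A2 ∧ SubB (S 3) A3) :
    Cy4 N τ S (w0 * w1 * w2 * w3) := by
  have m0 := cB_mono N hs.1
  have m1 := cB_mono N hs.2.1
  have m2 := cB_mono N hs.2.2.1
  have m3 := cB_mono N hs.2.2.2
  refine ⟨![T0, T1, T2, T3], ![w0, w1, w2, w3], fun s => ?_, fun s => ?_, rfl⟩
  · fin_cases s
    exacts [h0.mono m0, h1.mono m1, h2.mono m2, h3.mono m3]
  · fin_cases s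
    exacts [r0.mono m0 m1, r1.mono m1 m2, r2.mono m2 m3, r3.mono m3 m0]

theorem root (h : FlatOn K τ) (B : Pt × Pt) (hB : cB N B ⊆ K) : ∃ T, Triv τ (cB N B) T :=
  exists_triv h hB

theorem grow (h : FlatOn K τ) {A : Pt × Pt} {T : Pt → G} (hT : Triv τ (cB N A) T) (B : Pt × Pt)
    (hB : cB N B ⊆ K) (hm : Meet A B B) :
    ∃ T', Triv τ (cB N B) T' ∧ Rel (cB N A) (cB N B) T T' 1 := by
  obtain ⟨T', hT'⟩ := root h B hB
  obtain ⟨p, h1, h2, -⟩ := hm.point N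
  have h3 := hT'.mul (T p * (T' p)⁻¹)
  exact ⟨_, h3, rel_of_point hT h3 h1 h2 (by group)⟩

/-! ### translations -/

/-- the translate of a box -/
def shB (m : Pt) (B : Pt × Pt) : Pt × Pt := (B.1 + m, B.2 + m)

theorem mem_shB {m p : Pt} {B : Pt × Pt} :
    p ∈ cB N (shB m B) ↔ p - (2 * N : ℤ) • m ∈ cB N B := by
  simp only [cB, shB, mem_Icc, Pi.le_def, Pi.add_apply, Pi.sub_apply, Pi.smul_apply, smul_eq_mul,
    mul_add]
  exact and_congr (forall_congr' fun j => le_sub_iff_add_le.symm)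
    (forall_congr' fun j => sub_le_iff_le_add.symm)

theorem flatOn_sh (h : FlatOn K τ) (v : Pt) :
    FlatOn {p | p + v ∈ K} fun p q => τ (p + v) (q + v) := by
  refine ⟨fun p hp => h.refl _ hp, fun p hp k hk => ?_, fun p k l hkl h1 h2 h3 h4 => ?_⟩
  · simp only [mem_ofPred_eq, add_right_comm p (ee k) v] at hk ⊢
    exact h.back _ hp k hk
  · simp only [mem_ofPred_eq, add_right_comm _ (ee k) v, add_right_comm _ (ee l) v] at h2 h3 h4 ⊢
    exact h.sq _ k l hkl h1 h2 h3 h4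

theorem sub_sh {m : Pt} {B : Pt × Pt} (h : cB N (shB m B) ⊆ K) :
    cB N B ⊆ {p | p + (2 * N : ℤ) • m ∈ K} := fun p hp =>
  h (mem_shB.2 (by rwa [add_sub_cancel_right]))

theorem Cy4.sh {m : Pt} {S : Fin 4 → Pt × Pt} {z : G}
    (h : Cy4 N (fun p q => τ (p + (2 * N : ℤ) • m) (q + (2 * N : ℤ) • m)) S z) :
    Cy4 N τ (fun s => shB m (S s)) z := by
  obtain ⟨T, w, h1, h2, rfl⟩ := h
  refine ⟨fun s p => T s (p - (2 * N : ℤ) • m), w, fun s p hp q hq hpq => ?_,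
    fun s p hp hq => h2 s _ (mem_shB.1 hp) (mem_shB.1 hq), rfl⟩
  have := h1 s _ (mem_shB.1 hp) _ (mem_shB.1 hq) (by
    unfold Adj at hpq ⊢
    rwa [sub_sub_sub_cancel_right])
  simpa only [sub_add_cancel] using this

/-! ### leading terms up to sign -/

section lead
variable {R : Type} [CommRing R] {a I J : Ideal R} {u v : UC a} {z y : M2 R}

/-- the leading term up to sign -/
def LeadS (a I : Ideal R) (u : UC a) (z : M2 R) : Prop :=
  Lead a I (u : (M2 R)ˣ) z ∨ Lead a I (u : (M2 R)ˣ) (-z)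

theorem LeadS.inv (h : LeadS a I u z) : LeadS a I u⁻¹ z := by
  rcases h with h | h
  · exact Or.inr h.inv
  · exact Or.inl (neg_neg z ▸ h.inv)

theorem LeadS.cj (h : LeadS a I u z) (hc : Cj u v) : LeadS a I v z := by
  have key : ∀ (c w : UC a), LeadS a I w z → LeadS a I (c * w * c⁻¹) z := fun c w hw =>
    hw.imp (fun h => h.conj c.2) fun h => h.conj c.2
  obtain ⟨c, rfl | rfl⟩ := hc
  exacts [key c u h, key c _ h.inv]

theorem LeadS.cm (h : LeadS a I u z) (h' : LeadS a J v y) :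
    LeadS a (I * J) (cm u v) ⁅z, y⁆ := by
  have e1 : ⁅-z, y⁆ = -⁅z, y⁆ := by simp only [Ring.lie_def]; noncomm_ring
  have e2 : ⁅z, -y⁆ = -⁅z, y⁆ := by simp only [Ring.lie_def]; noncomm_ring
  have e3 : ⁅-z, -y⁆ = ⁅z, y⁆ := by simp only [Ring.lie_def]; noncomm_ring
  rcases h with h | h <;> rcases h' with h' | h'
  · exact Or.inl (h.cm h')
  · exact Or.inr (e2 ▸ h.cm h')
  · exact Or.inr (e1 ▸ h.cm h')
  · exact Or.inl (e3 ▸ h.cm h')

theorem LeadS.mul (h : LeadS a I u z) (h' : LeadS a I v y) :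
    ∃ ε : ℤ, (ε = 1 ∨ ε = -1) ∧ LeadS a I (u * v) (z + ε • y) := by
  rcases h with h | h <;> rcases h' with h' | h'
  · exact ⟨1, Or.inl rfl, Or.inl (by rw [one_smul]; exact h.mul h')⟩
  · exact ⟨-1, Or.inr rfl, Or.inl (by rw [neg_smul, one_smul]; exact h.mul h')⟩
  · exact ⟨-1, Or.inr rfl, Or.inr (by rw [neg_smul, one_smul, neg_add, neg_neg]; exact h.mul h')⟩
  · exact ⟨1, Or.inl rfl, Or.inr (by rw [one_smul, neg_add]; exact h.mul h')⟩

theorem LeadS.one (h : LeadS a I 1 z) : InC (a * I) z := by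
  rcases h with h | h
  · have := h.app.neg
    rwa [OneMemClass.coe_one, Units.val_one, sub_self, zero_sub, neg_neg] at this
  · have := h.app
    rwa [OneMemClass.coe_one, Units.val_one, sub_self, zero_sub, neg_neg] at this

end lead

end Vale.Agent.P260Z.Ob.Cyc
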