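import Vale.Agent.P260Z.Ob.Cert.Lead
import Vale.Agent.P215Z.Frm.Flat

/-!
# P260, obstruction, certificate: flat connections give flat transports
-/

noncomputable section
set_option linter.unusedSectionVars false
variable [Vale.Agent.P215Z.K.Geom]

namespace Vale.Agent.P215Z.K.Cert

open MvPolynomial Classical

variable {O : Type} [CommRing O] [Algebra ℚ O]

/-- reduction of matrices -/
def qM (d : Ideal O) : M2 O →+* M2 (O ⧸ d) := (Ideal.Quotient.mk d).mapMatrix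

omit [Algebra ℚ O] in
theorem inC_qM {d J : Ideal O} {x : M2 O} :
    InC (J.map (Ideal.Quotient.mk d)) (qM d x) ↔ InC (J ⊔ d) x :=
  forall₂_congr fun _ _ => Ideal.mem_quotient_iff_mem_sup

omit [Algebra ℚ O] in
theorem qM_eq_zero {d : Ideal O} {x : M2 O} (h : InC d x) : qM d x = 0 := by
  ext a a'
  exact Ideal.Quotient.eq_zero_iff_mem.2 (h a a')

/-- value at `t = 0`, modulo `d` -/
def Phi (d : Ideal O) : (MM O)ˣ →* (M2 (O ⧸ d))ˣ :=
  Units.map ((qM d).comp (Fm.at0 (O := O))).toMonoidHom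

omit [Algebra ℚ O] in
theorem coe_Phi (d : Ideal O) (g : (MM O)ˣ) : (Phi d g : M2 (O ⧸ d)) = qM d (at0 (g : MM O)) := rfl

omit [Algebra ℚ O] in
theorem at0_sub (x y : MM O) : at0 (x - y) = at0 x - at0 y := map_sub (Fm.at0 (O := O)) x y

omit [Algebra ℚ O] in
theorem at0_one : at0 (1 : MM O) = 1 := map_one (Fm.at0 (O := O))

omit [Algebra ℚ O] in
theorem Phi_of_at0U (d : Ideal O) {g g' : (MM O)ˣ} (h : at0U g = at0U g') :
    Phi d g = Phi d g' :=
  Units.ext (congrArg (qM d) (congrArg Units.val h))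

theorem Phi_congr {d : Ideal O} {g g' : (MM O)ˣ} (h : InI d ((g : MM O) - g')) :
    Phi d g = Phi d g' := by
  refine Units.ext ?_
  rw [coe_Phi, coe_Phi, ← sub_eq_zero, ← map_sub, ← at0_sub]
  exact qM_eq_zero h.at0

theorem Phi_eq_one {d : Ideal O} {g : (MM O)ˣ} (h : g ∈ UG d) : Phi d g = 1 :=
  (Phi_congr (g' := 1) h).trans (map_one _)

theorem Phi_mem (d : Ideal O) {a : Ideal O} {g : (MM O)ˣ} (h : g ∈ UG a) :
    Phi d g ∈ UC (a.map (Ideal.Quotient.mk d)) := by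
  show InC _ ((Phi d g : M2 (O ⧸ d)) - 1)
  rw [coe_Phi, ← map_one (qM d), ← map_sub, ← at0_one, ← at0_sub]
  exact inC_qM.2 ((InI.at0 h).mono le_sup_left)

theorem Phi_lead (d : Ideal O) {a I : Ideal O} {g : (MM O)ˣ} (h : g ∈ UG a) {z : M2 O}
    (hz : InC I z) (h' : InC (a * I ⊔ d) (at0 (g : MM O) - 1 - z)) :
    Lead (a.map (Ideal.Quotient.mk d)) (I.map (Ideal.Quotient.mk d)) (Phi d g) (qM d z) := by
  refine ⟨Phi_mem d h, inC_qM.2 (hz.mono le_sup_left), ?_⟩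
  rw [coe_Phi, ← map_one (qM d), ← map_sub, ← map_sub, ← Ideal.map_mul]
  exact inC_qM.2 h'

theorem exists_top (p : Pt) {k l : Fin 4} (hkl : k ≠ l) : ∃ c : Pt,
    (c = p ∨ c = p + ee k ∨ c = p + ee l ∨ c = p + ee k + ee l) ∧ IsFace p c ∧
      IsFace (p + ee k) c ∧ IsFace (p + ee l) c ∧ IsFace (p + ee k + ee l) c := by
  have key : ∀ c q : Pt, (∀ j, j ≠ k → j ≠ l → q j = c j) → Odd (c k) → Odd (c l) →
      |q k - c k| ≤ 1 → |q l - c l| ≤ 1 → IsFace q c := by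
    intro c q h1 h2 h3 h4 h5 j
    by_cases hk : j = k
    · subst hk
      rw [abs_le] at h4
      by_cases h : q j = c j
      · exact Or.inl h
      · exact Or.inr ⟨h2, by rw [abs_eq zero_le_one]; omega⟩
    by_cases hl : j = l
    · subst hl
      rw [abs_le] at h5
      by_cases h : q j = c j
      · exact Or.inl h
      · exact Or.inr ⟨h3, by rw [abs_eq zero_le_one]; omega⟩
    exact Or.inl (h1 j hk hl)
  have all : ∀ c : Pt, (∀ j, j ≠ k → j ≠ l → p j = c j) → Odd (c k) → Odd (c l) →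
      (c k = p k ∨ c k = p k + 1) → (c l = p l ∨ c l = p l + 1) → IsFace p c ∧
      IsFace (p + ee k) c ∧ IsFace (p + ee l) c ∧ IsFace (p + ee k + ee l) c := by
    intro c h1 h2 h3 h4 h5
    refine ⟨key c _ h1 h2 h3 ?_ ?_, key c _ (fun j a b => ?_) h2 h3 ?_ ?_,
      key c _ (fun j a b => ?_) h2 h3 ?_ ?_, key c _ (fun j a b => ?_) h2 h3 ?_ ?_⟩
    all_goals first
      | simp only [Pi.add_apply, ee_ne a, ee_ne b, add_zero, h1 j a b]
      | (simp only [Pi.add_apply, ee_self, ee_ne hkl, ee_ne hkl.symm, add_zero, abs_le]; omega)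
  have e1 := ee_self k
  have e2 := ee_self l
  have e3 := ee_ne hkl
  have e4 := ee_ne hkl.symm
  rcases Int.even_or_odd (p k) with h1 | h1 <;> rcases Int.even_or_odd (p l) with h2 | h2
  · refine ⟨p + ee k + ee l, by simp, all _ (fun j a b => ?_) ?_ ?_ ?_ ?_⟩
    · simp [ee_ne a, ee_ne b]
    all_goals simp [*]
  · refine ⟨p + ee k, by simp, all _ (fun j a b => ?_) ?_ ?_ ?_ ?_⟩
    · simp [ee_ne a]
    all_goals simp [*]
  · refine ⟨p + ee l, by simp, all _ (fun j a b => ?_) ?_ ?_ ?_ ?_⟩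
    · simp [ee_ne b]
    all_goals simp [*]
  · exact ⟨p, by simp, all _ (fun j a b => rfl) h1 h2 (Or.inl rfl) (Or.inl rfl)⟩

theorem flatOn_step {a : Ideal O} (ha : IsNilpotent a) {K : Set Pt} (hK : Cx K) {A : F1 O}
    (hA : Good1 K A) (hA' : In1 K a A) {d : Ideal O} {K' : Set Pt} (hK' : K' ⊆ K)
    (hf : ∀ p ∈ K', FlatAt A d p) : FlatOn K' fun p q => Phi d (step A p q) := by
  refine ⟨fun p _ => by rw [step_self, map_one], fun p _ k _ => by rw [step_symm, map_inv],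
    fun p k l hkl h1 h2 h3 h4 => ?_⟩
  obtain ⟨c, hc, f1, f2, f3, f4⟩ := exists_top p hkl
  have hc' : c ∈ K' := by rcases hc with rfl | rfl | rfl | rfl <;> assumption
  obtain ⟨g, -, -, hg⟩ := cell_flat ha hK hA hA' (hK' hc') (hf c hc')
  have key : ∀ τ τ', IsFace τ c → IsFace τ' c → Adj τ τ' →
      Phi d (step A τ τ') = (Phi d (g τ))⁻¹ * Phi d (g τ') := fun τ τ' h1 h2 h3 => by
    rw [← Phi_congr (hg τ τ' h1 h2 h3), map_mul, inv_mul_cancel_left]
  have a4 : Adj (p + ee l) (p + ee k + ee l) := by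
    rw [add_right_comm]; exact adj_ee _ _
  rw [key _ _ f1 f2 (adj_ee _ _), key _ _ f2 f4 (adj_ee _ _), key _ _ f1 f3 (adj_ee _ _),
    key _ _ f3 f4 a4]
  group

end Vale.Agent.P215Z.K.Cert
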