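import Vale.Agent.P260Z.Ob.Cert.Lead
import Vale.Agent.P260Z.Ob.Reg.Defs
import Vale.Agent.P260Z.Ob.Coh.Out
import Vale.Agent.P260Z.Ob.Coh.Cols

/-!
# P260, obstruction, certificate: the loops
-/

noncomputable section
set_option linter.unusedSectionVars false
variable [Vale.Agent.P215Z.K.Geom]

namespace Vale.Agent.P215Z.K.Cert

open Set Classical

theorem Kof_mono {X Y : Set Pt} (h : X ⊆ Y) : Kof X ⊆ Kof Y := fun _ ⟨q, hq, hp⟩ => ⟨q, h hq, hp⟩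

theorem K0_KR (N : ℕ) : K0 N ⊆ KR N := Kof_mono fun _ hq => ⟨hq.1, fun _ => hq.2 _⟩
theorem K0_KB (N : ℕ) : K0 N ⊆ KB N := Kof_mono fun _ hq => ⟨hq.1, fun _ => hq.2 _⟩

theorem K0_KS {N : ℕ} {p : Pt} (hp : p ∈ K0 N) (h3 : p 3 = 0) : p ∈ KS N := by
  refine ⟨⟨K0_KR N hp, K0_KB N hp⟩, ?_⟩
  obtain ⟨q, -, hq⟩ := hp
  refine ⟨Function.update q 3 (-1), fun h => ?_, fun j => ?_⟩
  · have := (h.1 3).1
    simp at this
  · by_cases hj : j = 3
    · subst hj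
      simp [cell, h3]
    · simpa [cell, Function.update_of_ne hj] using hq j

/-! ### the boundary of a grid -/

theorem bdG_zero (m : ℕ) : bdG m 0 = (0, 0) := by simp [bdG]

theorem bdG_end {m : ℕ} (hm : 0 < m) : bdG m (4 * m) = (0, 0) := by
  unfold bdG
  rw [if_neg (by omega), if_neg (by omega), if_neg (by omega)]
  simp

theorem bdG_adj {m k : ℕ} (hk : k < 4 * m) : GAdj (bdG m k) (bdG m (k + 1)) := by
  unfold bdG GAdj
  split_ifs <;> simp [Prod.ext_iff] <;> omega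

theorem bdG_0 {m k : ℕ} (h : k ≤ m) : ∃ u : ℤ, 0 ≤ u ∧ u ≤ m ∧ bdG m k = (u, 0) :=
  ⟨k, by omega, by omega, if_pos h⟩

theorem bdG_1 {m k : ℕ} (h : m ≤ k) (h' : k ≤ 2 * m) :
    ∃ u : ℤ, 0 ≤ u ∧ u ≤ m ∧ bdG m k = ((m : ℤ), u) := by
  refine ⟨k - m, by omega, by omega, ?_⟩
  unfold bdG
  split_ifs <;> simp only [Prod.ext_iff] <;> omega

theorem bdG_2 {m k : ℕ} (h : 2 * m ≤ k) (h' : k ≤ 3 * m) :
    ∃ u : ℤ, 0 ≤ u ∧ u ≤ m ∧ bdG m k = (u, (m : ℤ)) := by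
  refine ⟨3 * m - k, by omega, by omega, ?_⟩
  unfold bdG
  split_ifs <;> simp [Prod.ext_iff] <;> omega

theorem bdG_3 {m k : ℕ} (h : 3 * m ≤ k) (h' : k ≤ 4 * m) :
    ∃ u : ℤ, 0 ≤ u ∧ u ≤ m ∧ bdG m k = (0, u) := by
  refine ⟨4 * m - k, by omega, by omega, ?_⟩
  unfold bdG
  split_ifs <;> simp [Prod.ext_iff] <;> omega

/-- the four sides of a grid are mapped to the four sets -/
def Sides (S : Fin 4 → Set Pt) (P : Gp → Pt) (m : ℕ) : Prop :=
  ∀ u : ℤ, 0 ≤ u → u ≤ m → P (u, 0) ∈ S 0 ∧ P (m, u) ∈ S 1 ∧ P (u, m) ∈ S 2 ∧ P (0, u) ∈ S 3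

theorem loop_bdG {S : Fin 4 → Set Pt} {P : Gp → Pt} {m : ℕ} (hm : 0 < m) (h : Sides S P m)
    (hadj : ∀ k < 4 * m, Adj (P (bdG m k)) (P (bdG m (k + 1)))) :
    Loop5 S (fun k => P (bdG m k)) (4 * m) := by
  refine ⟨hadj, by simp only [bdG_end hm, bdG_zero], m, 2 * m, 3 * m, 4 * m, by omega, by omega,
    by omega, le_rfl, fun k a => ?_, fun k a b => ?_, fun k a b => ?_, fun k a b => ?_,
    fun k a b => ?_⟩
  · obtain ⟨u, h1, h2, e⟩ := bdG_0 a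
    exact e ▸ (h u h1 h2).1
  · obtain ⟨u, h1, h2, e⟩ := bdG_1 a b
    exact e ▸ (h u h1 h2).2.1
  · obtain ⟨u, h1, h2, e⟩ := bdG_2 a b
    exact e ▸ (h u h1 h2).2.2.1
  · obtain ⟨u, h1, h2, e⟩ := bdG_3 a b
    exact e ▸ (h u h1 h2).2.2.2
  · obtain rfl : k = 4 * m := by omega
    rw [bdG_end hm]
    exact (h 0 le_rfl (by omega)).1

/-- the boundary of a grid, started one step later -/
def bdS (m k : ℕ) : Gp := if k + 1 ≤ 4 * m then bdG m (k + 1) else (1, 0)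

theorem bdS_adj {m k : ℕ} (hk : k < 4 * m) : GAdj (bdS m k) (bdS m (k + 1)) := by
  unfold bdS
  rw [if_pos (by omega)]
  split_ifs with h
  · exact bdG_adj (by omega)
  · obtain e : k + 1 = 4 * m := by omega
    rw [e, bdG_end (by omega)]
    exact Or.inl (by simp)

theorem loop_bdS {S : Fin 4 → Set Pt} {P : Gp → Pt} {m : ℕ} (hm : 0 < m) (h : Sides S P m)
    (hadj : ∀ r r', GAdj r r' → Adj (P r) (P r')) : Loop5 S (fun k => P (bdS m k)) (4 * m) := by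
  have e0 : bdS m 0 = (1, 0) := by
    unfold bdS bdG
    rw [if_pos (by omega), if_pos (by omega)]
    rfl
  have e1 : bdS m (4 * m) = (1, 0) := if_neg (by omega)
  have e2 : ∀ k, k + 1 ≤ 4 * m → bdS m k = bdG m (k + 1) := fun k hk => if_pos hk
  refine ⟨fun k hk => hadj _ _ (bdS_adj hk), by simp only [e0, e1], m - 1, 2 * m - 1, 3 * m - 1,
    4 * m - 1, by omega, by omega, by omega, by omega, fun k a => ?_, fun k a b => ?_,
    fun k a b => ?_, fun k a b => ?_, fun k a b => ?_⟩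
  · obtain ⟨u, h1, h2, e⟩ := bdG_0 (m := m) (k := k + 1) (by omega)
    simp only [e2 k (by omega), e]
    exact (h u h1 h2).1
  · obtain ⟨u, h1, h2, e⟩ := bdG_1 (m := m) (k := k + 1) (by omega) (by omega)
    simp only [e2 k (by omega), e]
    exact (h u h1 h2).2.1
  · obtain ⟨u, h1, h2, e⟩ := bdG_2 (m := m) (k := k + 1) (by omega) (by omega)
    simp only [e2 k (by omega), e]
    exact (h u h1 h2).2.2.1
  · obtain ⟨u, h1, h2, e⟩ := bdG_3 (m := m) (k := k + 1) (by omega) (by omega)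
    simp only [e2 k (by omega), e]
    exact (h u h1 h2).2.2.2
  · by_cases hk : k = 4 * m
    · simp only [hk, e1]
      exact (h 1 zero_le_one (by omega)).1
    · obtain e : k + 1 = 4 * m := by omega
      simp only [e2 k e.le, e, bdG_end hm]
      exact (h 0 le_rfl (by omega)).1

/-- a plane in the lattice -/
def pl (b : Pt) (k l : Fin 4) (r : Gp) : Pt :=
  fun j => b j + if j = k then r.1 else if j = l then r.2 else 0

theorem pl_add_fst (b : Pt) (k l : Fin 4) (r : Gp) (t : ℤ) :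
    pl b k l (r.1 + t, r.2) = pl b k l r + t • ee k := by
  funext j
  by_cases h : j = k
  · simp [pl, h, ee_self, add_assoc]
  · simp [pl, h, ee_ne h]

theorem pl_add_snd (b : Pt) {k l : Fin 4} (hkl : k ≠ l) (r : Gp) (t : ℤ) :
    pl b k l (r.1, r.2 + t) = pl b k l r + t • ee l := by
  funext j
  by_cases h : j = l
  · simp [pl, h, ee_self, add_assoc, hkl.symm]
  · simp [pl, h, ee_ne h]

theorem pl_adj (b : Pt) {k l : Fin 4} (hkl : k ≠ l) (r r' : Gp) (h : GAdj r r') :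
    Adj (pl b k l r) (pl b k l r') := by
  rcases h with rfl | rfl | rfl | rfl
  · exact Or.inr ⟨k, Or.inl (by
      rw [show r + (1, 0) = (r.1 + 1, r.2) from Prod.ext rfl (add_zero _), pl_add_fst]; simp)⟩
  · exact Or.inr ⟨k, Or.inr (by
      rw [show r - (1, 0) = (r.1 + -1, r.2) from Prod.ext rfl (sub_zero _), pl_add_fst]; simp)⟩
  · exact Or.inr ⟨l, Or.inl (by
      rw [show r + (0, 1) = (r.1, r.2 + 1) from Prod.ext (add_zero _) rfl, pl_add_snd b hkl]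
      simp)⟩
  · exact Or.inr ⟨l, Or.inr (by
      rw [show r - (0, 1) = (r.1, r.2 + -1) from Prod.ext (sub_zero _) rfl, pl_add_snd b hkl]
      simp)⟩

theorem pl_mem (b : Pt) (k l : Fin 4) {r r0 r1 : Gp} (h0 : r0.1 ≤ r.1 ∧ r0.2 ≤ r.2)
    (h1 : r.1 ≤ r1.1 ∧ r.2 ≤ r1.2) : pl b k l r ∈ Icc (pl b k l r0) (pl b k l r1) := by
  refine ⟨fun j => ?_, fun j => ?_⟩ <;> simp only [pl] <;> split_ifs <;> omega

theorem midp_pl (b : Pt) (k l : Fin 4) (r r' : Gp) :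
    midp (pl b k l r) (pl b k l r') = pl b k l ((r.1 + r'.1) / 2, (r.2 + r'.2) / 2) := by
  funext j
  simp only [pl, midp]
  split_ifs <;> omega

/-! ### the weak loops -/

def ob (i : Kl) : Pt := fun j => if j = kap i ∨ j = 3 then 0 else 1

theorem kap_ne (i : Kl) : kap i ≠ 3 := Gx.kap_ne3 i

theorem kap_ne' (i : Kl) : kap i ≠ 2 := Gx.kap_ne2 i

theorem oP_eq (n : ℕ) (i : Kl) (k : ℕ) : oP n i k = pl (ob i) (kap i) 3 (bdS (2 * n) k) := by
  have e : 4 * (2 * n) = 8 * n := by ring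
  funext j
  simp only [oP, pl, ob, bdS, e]
  by_cases h1 : j = kap i
  · simp [h1]
  by_cases h2 : j = 3
  · simp [h2, (kap_ne i).symm]
  · simp [h1, h2]

def wkE (_ : Kl) : Bool := true
def wkS (_ : Kl) : Fin 4 := 0

theorem dm_adj (N : ℕ) (l : Lg) {p p' : Pt} (h : Adj p p') : Adj (dm N l p) (dm N l p') := by
  have e : dm N l p' - dm N l p = fun j => (p' - p) (prm l j) := by
    funext j; simp [dm]
  have e' : ∀ k, (fun j => ee k (prm l j)) = ee ((prm l).symm k) := fun k => by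
    funext j
    by_cases hj : prm l j = k
    · rw [← hj, Equiv.symm_apply_apply, ee_self, ee_self]
    · rw [ee_ne hj, ee_ne fun h => hj (by rw [h, Equiv.apply_symm_apply])]
  unfold Adj at h ⊢
  rw [e]
  rcases h with h | ⟨k, h | h⟩ <;> rw [h]
  · exact Or.inl rfl
  · exact Or.inr ⟨_, Or.inl (e' k)⟩
  · exact Or.inr ⟨_, Or.inr (by rw [← e' k]; rfl)⟩

theorem weak_around {N : ℕ} (hN : 0 < N) (i : Kl) :
    Around (Face N (i, false)) (wkE i) (fun k => dm N (i, false) (oP (3 * N) i k)) (8 * (3 * N)) := by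
  refine ⟨wkS i, ?_⟩
  have e : 8 * (3 * N) = 4 * (2 * (3 * N)) := by ring
  simp only [oP_eq, e]
  refine loop_bdS (P := fun r => dm N (i, false) (pl (ob i) (kap i) 3 r)) (by omega)
    (fun u h1 h2 => ?_) fun r r' h => dm_adj N _ (pl_adj _ (kap_ne i) r r' h)
  push_cast at h2
  refine ⟨⟨fun j => ?_, ?_⟩, ⟨fun j => ?_, ?_⟩, ⟨fun j => ?_, ?_⟩,
    ⟨fun j => ?_, ?_⟩⟩ <;> (try fin_cases j) <;>
    simp [dm, prm, Gx.ppi_val, pl, ob, kap, fd, bu, fh, wkE, wkS, mul_add] <;> omega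

theorem oP_mem {n : ℕ} (hn : 0 < n) (i : Kl) {k : ℕ} (hk : k ≤ 8 * n) :
    oP n i k ∈ KdQ n ∧ oP n i k ∉ V0 i n := by
  have key : ∀ r : Gp, 0 ≤ r.1 → r.1 ≤ 2 * n → 0 ≤ r.2 → r.2 ≤ 2 * n →
      (r.1 = 0 ∨ r.1 = 2 * n ∨ r.2 = 0 ∨ r.2 = 2 * n) → pl (ob i) (kap i) 3 r ∈ KdQ n := by
    intro r h1 h2 h3 h4 h5
    refine ⟨fun j => ?_, ?_⟩
    · simp only [pl, ob]
      split_ifs <;> omega
    · rcases h5 with h | h | h | h
      · exact ⟨kap i, Or.inl (by simp [pl, ob, h])⟩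
      · exact ⟨kap i, Or.inr (by simp [pl, ob, h])⟩
      · exact ⟨3, Or.inl (by simp [pl, ob, h, (kap_ne i).symm])⟩
      · exact ⟨3, Or.inr (by simp [pl, ob, h, (kap_ne i).symm])⟩
  refine ⟨?_, ?_⟩
  · have h := (loop_bdS (S := fun _ => KdQ n) (P := pl (ob i) (kap i) 3) (m := 2 * n) (by omega)
      (fun u h1 h2 => by
        push_cast at h2
        refine ⟨key _ ?_ ?_ ?_ ?_ ?_, key _ ?_ ?_ ?_ ?_ ?_, key _ ?_ ?_ ?_ ?_ ?_,
          key _ ?_ ?_ ?_ ?_ ?_⟩ <;> simp <;> omega)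
      (pl_adj _ (kap_ne i)))
    rw [oP_eq]
    exact Around.mem (S := fun _ => KdQ n) (e := true) (fun _ => subset_rfl) ⟨0, h⟩ k (by omega)
  · rintro ⟨-, j, h1, h2, h3⟩
    simp only [oP, if_neg h1, if_neg h2] at h3
    omega

/-! ### the strong loops -/

/-- the plane of the lowest base square of a strong cube -/
def sq0 (N : ℕ) (i : Kl) : Gp → Pt := pl (fun j => 2 * N * org (i, true) j) (bu i) 2

theorem bu_ne (i : Kl) : bu i ≠ 2 := by simp only [bu]; decide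

theorem strong_around {N : ℕ} (hN : 0 < N) (i : Kl) :
    Around (Face N (i, true)) true (fun k => sq0 N i (bdG (6 * N) k)) (4 * (6 * N)) := by
  refine ⟨0, loop_bdG (by omega) (fun u h1 h2 => ?_)
    fun k hk => pl_adj _ (bu_ne i) _ _ (bdG_adj hk)⟩
  push_cast at h2
  refine ⟨⟨fun j => ?_, ?_⟩, ⟨fun j => ?_, ?_⟩, ⟨fun j => ?_, ?_⟩,
    ⟨fun j => ?_, ?_⟩⟩ <;> (try fin_cases j) <;>
    simp [sq0, pl, fd, bu, fh, mul_add] <;> omega

def cLo : Fin 4 → Gp := ![(0, 0), (2, 0), (0, 2), (0, 0)]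
def cHi (m : ℤ) : Fin 4 → Gp := ![(m, 0), (m, m), (m, m), (0, m)]

/-- the base square without its corner plaquette -/
def Kc (N : ℕ) (i : Kl) : Set Pt :=
  {p | p ∈ Icc (sq0 N i (0, 0)) (sq0 N i (6 * N, 6 * N)) ∧ p ≠ sq0 N i (1, 1)}

theorem corner_sub {N : ℕ} (i : Kl) (s : Fin 4) :
    Icc (sq0 N i (cLo s)) (sq0 N i (cHi (6 * N) s)) ⊆ Kc N i := by
  intro p hp
  have hN : (0 : ℤ) ≤ N := Int.natCast_nonneg N
  refine ⟨Icc_subset_Icc (pl_mem _ _ _ (r1 := cLo s) ?_ ⟨le_rfl, le_rfl⟩).1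
    (pl_mem _ _ _ (r0 := cHi (6 * N) s) ⟨le_rfl, le_rfl⟩ ?_).2 hp, ?_⟩
  · fin_cases s <;> simp [cLo]
  · fin_cases s <;> simp [cHi]
  · rintro rfl
    have h1 := hp.1 (bu i)
    have h2 := hp.2 (bu i)
    have h3 := hp.1 2
    have h4 := hp.2 2
    simp only [sq0, pl, if_true, if_neg (bu_ne i).symm] at h1 h2 h3 h4
    fin_cases s <;> simp [cLo, cHi] at h1 h2 h3 h4

theorem corner_loop {N : ℕ} (i : Kl) {m : ℕ} (h2 : 2 ≤ m) (hm : m ≤ 6 * N) :
    Loop5 (fun s => Icc (sq0 N i (cLo s)) (sq0 N i (cHi (6 * N) s)))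
      (fun k => sq0 N i (bdG m k)) (4 * m) := by
  refine loop_bdG (by omega) (fun u h1 h2 => ⟨pl_mem _ _ _ ?_ ?_, pl_mem _ _ _ ?_ ?_,
    pl_mem _ _ _ ?_ ?_, pl_mem _ _ _ ?_ ?_⟩) fun k hk => pl_adj _ (bu_ne i) _ _ (bdG_adj hk) <;>
  simp [cLo, cHi] <;> omega

theorem cube_KB {N : ℕ} (hN : 0 < N) (i : Kl) :
    Icc (sq0 N i (0, 0)) (sq0 N i (6 * N, 6 * N)) ⊆ KB N := by
  intro p hp
  obtain ⟨q, hq, hpq⟩ := exists_cube hN (B := (org (i, true), org (i, true) + 3))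
    (fun j => by simp) (p := p) ⟨fun j => by
      have := hp.1 j
      simp only [sq0, pl] at this
      show 2 * N * org (i, true) j ≤ p j
      split_ifs at this <;> omega, fun j => by
      have := hp.2 j
      simp only [sq0, pl] at this
      show p j ≤ 2 * N * (org (i, true) j + 3)
      rw [mul_add]
      split_ifs at this <;> omega⟩
  refine ⟨q, ⟨Coh.Qc_subset (i, true) hq, fun i' h => ?_⟩, hpq⟩
  exact Coh.Outx.not_both hq h ((Gx.org_gap3 (i, true) (i', false)).resolve_left (by simp))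

/-- cells near the axis of a strong cube are not in `K0` -/
theorem not_K0 {N : ℕ} (hN : 0 < N) (i : Kl) {p : Pt}
    (h1 : ∀ j, j ≠ kap i → j ≠ 3 → p j = 2 * N * org (i, true) j + 1)
    (h2 : 2 * N * org (i, true) (kap i) - 1 ≤ p (kap i))
    (h3 : p (kap i) ≤ 2 * N * org (i, true) (kap i) + 6 * N + 1) : p ∉ K0 N := by
  rintro ⟨q, ⟨hU, hq⟩, hpq⟩
  have a := abs_le.1 (hpq (kap i))
  simp only [cell, mul_assoc] at a h2 h3
  refine hq (i, true) (Gx.fib_in hU (fun j c d => ?_) (by simp only; omega) (by simp only; omega))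
  have b := abs_le.1 (hpq j)
  rw [h1 j c d, cell, mul_assoc] at b
  omega

/-- a cell of a base square which is on the axis of a strong cube is the corner plaquette -/
theorem eq_corner {N : ℕ} {i i' : Kl} {p : Pt}
    (hp : p ∈ Icc (sq0 N i (0, 0)) (sq0 N i (6 * N, 6 * N)))
    (h1 : ∀ j, j ≠ kap i' → j ≠ 3 → p j = 2 * N * org (i', true) j + 1) :
    i' = i ∧ p = sq0 N i (1, 1) := by
  have hi : i' = i := by
    by_contra hne
    obtain ⟨j, hj, h⟩ := Gx.org_gap02 (i', true) (i, true) (by simpa using hne)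
    have e := h1 j ((Gx.base_iff (i := i')).2 hj).1 ((Gx.base_iff (i := i')).2 hj).2
    have l1 := hp.1 j
    have l2 := hp.2 j
    have hN : (0 : ℤ) ≤ N := Int.natCast_nonneg N
    have hN' : (0 : ℤ) < N := by
      by_contra h0
      obtain rfl : N = 0 := by omega
      simp only [sq0, pl] at l1 l2
      split_ifs at l1 l2 <;> simp at e l1 l2 <;> omega
    simp only [sq0, pl, mul_assoc] at e l1 l2
    rcases h with h | h <;> have := mul_le_mul_of_nonneg_left h hN <;> rw [mul_add] at this <;>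
      split_ifs at l1 l2 <;> omega
  subst hi
  refine ⟨rfl, funext fun j => ?_⟩
  have l1 := hp.1 j
  have l2 := hp.2 j
  have key : ∀ (i : Kl) (j : Fin 4), (j = bu i ∨ j = 2) ↔ (j ≠ kap i ∧ j ≠ 3) :=
    fun i j => Gx.base_iff.symm
  simp only [sq0, pl] at l1 l2 ⊢
  by_cases c1 : j = bu i'
  · rw [if_pos c1, h1 j ((key _ _).1 (Or.inl c1)).1 ((key _ _).1 (Or.inl c1)).2]
  by_cases c2 : j = 2
  · rw [if_neg c1, if_pos c2, h1 j ((key _ _).1 (Or.inr c2)).1 ((key i' _).1 (Or.inr c2)).2]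
  · rw [if_neg c1, if_neg c2] at l1 l2 ⊢
    omega

/-! ### the boundary rectangle -/

theorem ref_bd (F : Gp → Pt) (M : ℕ) {r : Gp} (hr : OnBd (2 * M) r) : ∃ v v', OnBd M v ∧ OnBd M v' ∧
    ref F r = F v + F v' + 1 ∧ (r.1 = 0 → v.1 = 0 ∧ v'.1 = 0) ∧ (r.2 = 0 → v.2 = 0 ∧ v'.2 = 0) ∧
      (r.1 = 2 * M → v.1 = M ∧ v'.1 = M) ∧ (r.2 = 2 * M → v.2 = M ∧ v'.2 = M) := by
  obtain ⟨⟨h1, h2, h3, h4⟩, h5⟩ := hr
  push_cast at h2 h4 h5
  unfold ref
  by_cases c1 : Even r.1 <;> by_cases c2 : Even r.2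
  · rw [if_pos ⟨c1, c2⟩]
    rw [Int.even_iff] at c1 c2
    refine ⟨(r.1 / 2, r.2 / 2), (r.1 / 2, r.2 / 2), ?_, ?_, ?_, ?_, ?_, ?_, ?_⟩
    any_goals (simp only [OnBd, InG]; omega)
    funext j
    simp [cell, two_mul]
  · rw [if_neg fun h => c2 h.2, if_neg c2, if_pos c1]
    rw [Int.even_iff] at c1 c2
    refine ⟨(r.1 / 2, r.2 / 2), (r.1 / 2, r.2 / 2 + 1), ?_, ?_, rfl, ?_, ?_, ?_, ?_⟩ <;>
      (simp only [OnBd, InG]; omega)
  · rw [if_neg fun h => c1 h.1, if_pos c2]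
    rw [Int.even_iff] at c1 c2
    refine ⟨(r.1 / 2, r.2 / 2), (r.1 / 2 + 1, r.2 / 2), ?_, ?_, rfl, ?_, ?_, ?_, ?_⟩ <;>
      (simp only [OnBd, InG]; omega)
  · rw [Int.even_iff] at c1 c2
    omega

theorem ref_side (D : DiscData) {r : Gp} (hr : OnBd (2 * D.M) r) : ref (D.F 1) r 3 = 1 ∧
    (r.2 = 0 → ref (D.F 1) r ∈ Side D.N 0) ∧ (r.1 = 2 * D.M → ref (D.F 1) r ∈ Side D.N 1) ∧
      (r.2 = 2 * D.M → ref (D.F 1) r ∈ Side D.N 2) ∧ (r.1 = 0 → ref (D.F 1) r ∈ Side D.N 3) := by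
  obtain ⟨v, v', hv, hv', e, c1, c2, c3, c4⟩ := ref_bd (D.F 1) D.M hr
  obtain ⟨-, a3, a0, a1, a2, a4⟩ := D.bd v hv
  obtain ⟨-, b3, b0, b1, b2, b4⟩ := D.bd v' hv'
  have e' : ∀ j, ref (D.F 1) r j = D.F 1 v j + D.F 1 v' j + 1 := fun j => congrFun e j
  have key : ∀ s, InBox D.N (sideB s).1 (sideB s).2 (D.F 1 v) →
      InBox D.N (sideB s).1 (sideB s).2 (D.F 1 v') → ref (D.F 1) r ∈ Side D.N s := fun s a b =>
    ⟨fun j => by have := a j; have := b j; simp only [e', mul_assoc]; omega,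
      fun j => by have := a j; have := b j; simp only [e', mul_assoc]; omega⟩
  exact ⟨by rw [e']; omega, fun h => key 0 (a0 (c2 h).1) (b0 (c2 h).2),
    fun h => key 1 (a1 (c3 h).1) (b1 (c3 h).2), fun h => key 2 (a2 (c4 h).1) (b2 (c4 h).2),
    fun h => key 3 (a4 (c1 h).1) (b4 (c1 h).2)⟩

theorem sides_ref (D : DiscData) : Sides (Side D.N) (ref (D.F 1)) (2 * D.M) := by
  intro u h1 h2
  have hM : (0 : ℤ) ≤ ((2 * D.M : ℕ) : ℤ) := Int.natCast_nonneg _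
  refine ⟨(ref_side D ⟨⟨h1, h2, le_rfl, hM⟩, by simp⟩).2.1 rfl,
    (ref_side D ⟨⟨hM, le_rfl, h1, h2⟩, by simp⟩).2.2.1 (by simp),
    (ref_side D ⟨⟨h1, h2, hM, le_rfl⟩, by simp⟩).2.2.2.1 (by simp),
    (ref_side D ⟨⟨le_rfl, hM, h1, h2⟩, by simp⟩).2.2.2.2 rfl⟩

theorem onBd_bdG {m k : ℕ} (hk : k ≤ 4 * m) : OnBd m (bdG m k) := by
  unfold bdG OnBd InG
  split_ifs <;> simp <;> omega

end Vale.Agent.P215Z.K.Cert
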