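import Vale.Agent.P260Z.Ob.Cert.Main
import Vale.Agent.P215Z.Frm.Basic

/-!
# P260, obstruction, certificate: leading terms
-/

noncomputable section
set_option linter.unusedSectionVars false
variable [Vale.Agent.P215Z.K.Geom]

namespace Vale.Agent.P215Z.K.Cert

open Set Classical

section sub
variable {G : Type} [Group G] {N : ℕ} {τ : Pt → Pt → G}

theorem Around.mem {S : Fin 4 → Set Pt} {K : Set Pt} (hS : ∀ s, S s ⊆ K) {e : Bool} {x : ℕ → Pt}
    {n : ℕ} (h : Around S e x n) : ∀ k ≤ n, x k ∈ K := by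
  obtain ⟨s0, -, -, n1, n2, n3, n4, h12, h23, h34, h4, p0, p1, p2, p3, p4⟩ := h
  intro k hk
  by_cases h1 : k ≤ n1
  · exact hS _ (p0 k h1)
  by_cases h2 : k ≤ n2
  · exact hS _ (p1 k (by omega) h2)
  by_cases h3 : k ≤ n3
  · exact hS _ (p2 k (by omega) h3)
  by_cases h5 : k ≤ n4
  · exact hS _ (p3 k (by omega) h5)
  · exact hS _ (p4 k (by omega) hk)

theorem holN_congr' {α : Type} {U U' : α → α → G} (x : ℕ → α) (n : ℕ)
    (h : ∀ k < n, U (x k) (x (k + 1)) = U' (x k) (x (k + 1))) : holN U x n = holN U' x n := by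
  induction n with
  | zero => rfl
  | succ n ih => rw [holN, holN, ih fun k hk => h k (by omega), h n (by omega)]

theorem holN_congr'' {α β : Type} {U : α → α → G} {U' : β → β → G} (x : ℕ → α) (y : ℕ → β) (n : ℕ)
    (h : ∀ k < n, U (x k) (x (k + 1)) = U' (y k) (y (k + 1))) : holN U x n = holN U' y n := by
  induction n with
  | zero => rfl
  | succ n ih => rw [holN, holN, ih fun k hk => h k (by omega), h n (by omega)]

theorem hom_holN {α G' : Type} [Group G'] (φ : G →* G') (U : α → α → G) (x : ℕ → α) (n : ℕ) :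
    φ (holN U x n) = holN (fun x y => φ (U x y)) x n := by
  induction n with
  | zero => exact map_one φ
  | succ n ih => exact (map_mul φ _ _).trans (congrArg (· * φ (U (x n) (x (n + 1)))) ih)

/-- the layer of unit cubes next to a base face -/
def faceBox (l : Lg) (s : Fin 4) : Pt × Pt :=
  (fun j => if j = fd l.1 s then org l j + fh s - (if fh s = 0 then 1 else 0) else org l j,
    fun j => if j = fd l.1 s then org l j + fh s + (if fh s = 0 then 0 else 1) else org l j + 3)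

theorem faceBox_good (l : Lg) (s : Fin 4) : GoodB (faceBox l s) := by
  have hd : fd l.1 s = 0 ∨ fd l.1 s = 2 := by fin_cases s <;> simp [fd, bu]
  have hh : fh s = 0 ∨ fh s = 3 := by fin_cases s <;> simp [fh]
  have h1 : (1 : Fin 4) ≠ fd l.1 s := by rcases hd with h | h <;> rw [h] <;> decide
  have hb : ∀ j, org l j - 1 ≤ (faceBox l s).1 j ∧ (faceBox l s).2 j ≤ org l j + 4 := fun j => by
    simp only [faceBox]
    split_ifs <;> omega
  refine ⟨fun j => ?_, fun c hc => ?_, fun l' => ?_⟩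
  · have a1 := Gx.org_bound l j
    simp only [faceBox]
    by_cases e : j = fd l.1 s
    · have a2 := Gx.org_side l (j := j) (e ▸ hd)
      simp only [if_pos e]
      split_ifs <;> omega
    · simp only [if_neg e]
      omega
  · rcases Gx.org_free l c hc with h | ⟨j, -, h⟩
    · exact ⟨1, by simpa only [faceBox, if_neg h1] using h⟩
    · exact ⟨j, by have := hb j; omega⟩
  · by_cases e : l = l'
    · subst e
      refine ⟨fd l.1 s, ?_⟩
      simp only [faceBox, if_true]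
      split_ifs <;> omega
    · obtain ⟨j, -, h⟩ := Gx.org_gap l l' e
      exact ⟨j, by have := hb j; omega⟩

theorem Face_K0 (hN : 0 < N) (l : Lg) (s : Fin 4) : Face N l s ⊆ K0 N := by
  refine (Face_sub N l s).trans ((cB_mono N fun j => ?_).trans (cB_sub hN (faceBox_good l s)))
  simp only [faceBox, faceB]
  split_ifs <;> omega

theorem Side_K0 (hN : 0 < N) (s : Fin 4) : Side N s ⊆ K0 N := by
  exact cB_sub hN ⟨Gx.side_in s, Gx.side_cave s, Gx.side_Q s⟩

/-- as `HolIs`, with conjugating elements in `H` -/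
def HolIn (H : Subgroup G) (τ : Pt → Pt → G) (S : Fin 4 → Set Pt) (z : G) : Prop :=
  ∀ e x n, Around S e x n → ∃ c ∈ H, holN τ x n = c * (if e then z else z⁻¹) * c⁻¹

theorem cert_sub [HasCert] (hN : 0 < N) (h : FlatOn (K0 N) τ) (H : Subgroup G)
    (hH : ∀ p ∈ K0 N, ∀ q ∈ K0 N, τ p q ∈ H) : ∃ (Z : Lg → H) (w : H),
    (∀ l, HolIn H τ (Face N l) (Z l)) ∧ HolIn H τ (Side N) w ∧ CW Z Geom.r w := by
  let τ' : Pt → Pt → H := fun p q =>
    if hpq : p ∈ K0 N ∧ q ∈ K0 N then ⟨τ p q, hH p hpq.1 q hpq.2⟩ else 1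
  have e : ∀ p ∈ K0 N, ∀ q ∈ K0 N, (τ' p q : G) = τ p q := fun p hp q hq => by
    simp only [τ', dif_pos (And.intro hp hq)]
  have h' : FlatOn (K0 N) τ' := by
    refine ⟨fun p hp => Subtype.ext ?_, fun p hp k hk => Subtype.ext ?_,
      fun p k l hkl h1 h2 h3 h4 => Subtype.ext ?_⟩
    · rw [e p hp p hp, h.refl p hp]; rfl
    · rw [Subgroup.coe_inv, e _ hk _ hp, e _ hp _ hk, h.back p hp k hk]
    · rw [Subgroup.coe_mul, Subgroup.coe_mul, e _ h1 _ h2, e _ h2 _ h4, e _ h1 _ h3, e _ h3 _ h4]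
      exact h.sq p k l hkl h1 h2 h3 h4
  have key : ∀ (S : Fin 4 → Set Pt) (z : H), (∀ s, S s ⊆ K0 N) → HolIs τ' S z →
      HolIn H τ S (z : G) := by
    intro S z hS hz b x n hx
    obtain ⟨c, hc⟩ := hz b x n hx
    refine ⟨c, c.2, ?_⟩
    have h1 := congrArg H.subtype hc
    rw [hom_holN] at h1
    have h2 : holN τ x n = holN (fun x y => H.subtype (τ' x y)) x n :=
      holN_congr' x n fun k hk =>
        (e _ (hx.mem hS k (by omega)) _ (hx.mem hS (k + 1) (by omega))).symm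
    rw [h2, h1]
    cases b <;> rfl
  obtain ⟨Z, w, h1, h2, h3⟩ := HasCert.cert H N τ' hN h'
  exact ⟨Z, w, fun l => key _ _ (Face_K0 hN l) (h1 l), key _ _ (Side_K0 hN) h2, h3⟩

/-- two loops around the same four boxes with the same start have the same holonomy -/
theorem loop_eq {K : Set Pt} (h : FlatOn K τ) (lo hi : Fin 4 → Pt) (hK : ∀ s, Icc (lo s) (hi s) ⊆ K)
    {x y : ℕ → Pt} {n m : ℕ} (hx : Loop5 (fun s => Icc (lo s) (hi s)) x n)
    (hy : Loop5 (fun s => Icc (lo s) (hi s)) y m) (h0 : x 0 = y 0) : holN τ x n = holN τ y m := by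
  choose T hT using fun s => exists_triv h (hK s)
  choose w hw using fun s => exists_rel (hT s) (hT (s + 1))
  rw [hx.hol hT hw, hy.hol hT hw, h0]

end sub

section lead
variable {R : Type} [CommRing R]

/-- units congruent to one -/
def UC (a : Ideal R) : Subgroup (M2 R)ˣ where
  carrier := {g | InC a ((g : M2 R) - 1)}
  mul_mem' := fun {g h} hg hh => by
    have h1 := InC.mul_sub hg hh
    rwa [mul_one] at h1
  one_mem' := by
    show InC a (((1 : (M2 R)ˣ) : M2 R) - 1)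
    rw [Units.val_one, sub_self]
    exact InC.zero
  inv_mem' := fun {g} hg => InC.inv_sub (g := g) (g' := 1) hg

/-- `z` is the leading term of `u - 1` -/
structure Lead (a I : Ideal R) (u : (M2 R)ˣ) (z : M2 R) : Prop where
  mem : InC a ((u : M2 R) - 1)
  inI : InC I z
  app : InC (a * I) ((u : M2 R) - 1 - z)

variable {a I J : Ideal R} {u v c : (M2 R)ˣ} {z y : M2 R}

theorem Lead.sub_one (h : Lead a I u z) : InC I ((u : M2 R) - 1) := by
  have := (h.app.mono Ideal.mul_le_right).add h.inI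
  rwa [sub_add_cancel] at this

theorem Lead.mul (h : Lead a I u z) (h' : Lead a I v y) : Lead a I (u * v) (z + y) := by
  refine ⟨(UC a).mul_mem h.mem h'.mem, h.inI.add h'.inI, ?_⟩
  have e : ((u * v : (M2 R)ˣ) : M2 R) - 1 - (z + y) =
      ((u : M2 R) - 1) * ((v : M2 R) - 1) + ((u : M2 R) - 1 - z) + ((v : M2 R) - 1 - y) := by
    rw [Units.val_mul]; noncomm_ring
  rw [e]
  exact ((h.mem.mul h'.sub_one).add h.app).add h'.app

theorem Lead.inv (h : Lead a I u z) : Lead a I u⁻¹ (-z) := by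
  have h1 : InC a ((↑u⁻¹ : M2 R) - 1) := (UC a).inv_mem h.mem
  refine ⟨h1, h.inI.neg, ?_⟩
  have e : (↑u⁻¹ : M2 R) - 1 - -z =
      -(((↑u⁻¹ : M2 R) - 1) * ((u : M2 R) - 1)) - ((u : M2 R) - 1 - z) := by
    rw [sub_mul, mul_sub, Units.inv_mul]; noncomm_ring
  rw [e]
  exact (h1.mul h.sub_one).neg.sub h.app

theorem Lead.conj (h : Lead a I u z) (hc : c ∈ UC a) : Lead a I (c * u * c⁻¹) z := by
  have h1 : InC a ((c : M2 R) - 1) := hc
  have h2 : InC a ((↑c⁻¹ : M2 R) - 1) := (UC a).inv_mem hc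
  refine ⟨(UC a).mul_mem ((UC a).mul_mem hc h.mem) ((UC a).inv_mem hc), h.inI, ?_⟩
  have e : ((c * u * c⁻¹ : (M2 R)ˣ) : M2 R) - 1 - z =
      ((c : M2 R) - 1) * (((u : M2 R) - 1) * ↑c⁻¹) + ((u : M2 R) - 1) * ((↑c⁻¹ : M2 R) - 1) +
        ((u : M2 R) - 1 - z) + ((c : M2 R) * ↑c⁻¹ - 1) := by
    rw [Units.val_mul, Units.val_mul]; noncomm_ring
  rw [e, Units.mul_inv, sub_self, add_zero]
  exact ((h1.mul (h.sub_one.mul_right _)).add
    ((h.sub_one.mul h2).mono (mul_comm I a).le)).add h.app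

theorem Lead.of_conj {e : Bool} (h : Lead a I v z) (hc : c ∈ UC a)
    (hv : v = c * (if e then u else u⁻¹) * c⁻¹) : Lead a I u (if e then z else -z) := by
  have h1 := h.conj ((UC a).inv_mem hc)
  rw [hv, show ∀ w : (M2 R)ˣ, c⁻¹ * (c * w * c⁻¹) * c⁻¹⁻¹ = w from fun w => by group] at h1
  cases e
  · exact inv_inv u ▸ h1.inv
  · exact h1

theorem Lead.cm (h : Lead a I u z) (h' : Lead a J v y) : Lead a (I * J) (cm u v) ⁅z, y⁆ := by
  have hu := (UC a).inv_mem h.mem
  have hv := (UC a).inv_mem h'.mem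
  have h0 : InC a (((u⁻¹ * v⁻¹ : (M2 R)ˣ) : M2 R) - 1) := (UC a).mul_mem hu hv
  have hJI : J * I ≤ I * J := (mul_comm J I).le
  have l1 : a * I * J ≤ a * (I * J) := (mul_assoc _ _ _).le
  have l2 : I * (a * J) ≤ a * (I * J) := (mul_left_comm _ _ _).le
  have l3 : a * J * I ≤ a * (I * J) := by rw [mul_assoc, mul_comm J I]
  have l4 : J * (a * I) ≤ a * (I * J) := by rw [mul_left_comm, mul_comm J I]
  have hb : InC (I * J) (((u : M2 R) - 1) * ((v : M2 R) - 1) - ((v : M2 R) - 1) * ((u : M2 R) - 1)) :=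
    (h.sub_one.mul h'.sub_one).sub ((h'.sub_one.mul h.sub_one).mono hJI)
  refine ⟨(UC a).mul_mem ((UC a).mul_mem ((UC a).mul_mem h.mem h'.mem) hu) hv,
    (h.inI.mul h'.inI).sub ((h'.inI.mul h.inI).mono hJI), ?_⟩
  have e0 : (v : M2 R) * u * ((↑u⁻¹ : M2 R) * ↑v⁻¹) = 1 := by
    rw [mul_assoc, Units.mul_inv_cancel_left, Units.mul_inv]
  have e : ((Cert.cm u v : (M2 R)ˣ) : M2 R) - 1 - ⁅z, y⁆ =
      (((u : M2 R) - 1) * ((v : M2 R) - 1) - ((v : M2 R) - 1) * ((u : M2 R) - 1)) *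
          (((u⁻¹ * v⁻¹ : (M2 R)ˣ) : M2 R) - 1) +
        (((u : M2 R) - 1 - z) * ((v : M2 R) - 1) + z * ((v : M2 R) - 1 - y)) -
        (((v : M2 R) - 1 - y) * ((u : M2 R) - 1) + y * ((u : M2 R) - 1 - z)) +
        ((v : M2 R) * u * ((↑u⁻¹ : M2 R) * ↑v⁻¹) - 1) := by
    rw [Cert.cm, Ring.lie_def]
    simp only [Units.val_mul]
    noncomm_ring
  rw [e, e0, sub_self, add_zero]
  exact (((hb.mul h0).mono (mul_comm _ _).le).add (((h.app.mul h'.sub_one).mono l1).add
    ((h.inI.mul h'.app).mono l2))).sub (((h'.app.mul h.sub_one).mono l3).add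
    ((h'.inI.mul h.app).mono l4))

theorem lb_congr {A : Type} [Ring A] {z z' : ℕ → A} {j : ℕ} (h : ∀ t ≤ j, z t = z' t) :
    lb z j = lb z' j := by
  induction j with
  | zero => exact h 0 le_rfl
  | succ j ih => rw [lb, lb, ih fun t ht => h t (by omega), h _ le_rfl]

/-- the leading term up to sign -/
def LeadS (a I : Ideal R) (u : (M2 R)ˣ) (z : M2 R) : Prop := Lead a I u z ∨ Lead a I u (-z)

theorem LeadS.cm (h : LeadS a I u z) (h' : Lead a J v y) :
    LeadS a (I * J) (Cert.cm u v) ⁅z, y⁆ := by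
  have e1 : ⁅-z, y⁆ = -⁅z, y⁆ := by simp only [Ring.lie_def]; noncomm_ring
  exact h.imp (fun h => h.cm h') fun h => e1 ▸ h.cm h'

theorem Lead.sign (h : Lead a I u z) (e : Bool) :
    Lead a I (if e then u else u⁻¹) (if e then z else -z) := by
  cases e
  exacts [h.inv, h]

theorem IsY.lead {Z : Lg → UC a} {i : Kl} {w : UC a} (h : IsY Z i w) {z : Lg → M2 R}
    (hz : ∀ s, Lead a I (Z (i, s)) (z (i, s))) : ∃ e e' : Bool, Lead a I w
      ((if e then z (i, true) else -z (i, true)) + if e' then z (i, false) else -z (i, false)) := by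
  obtain ⟨e, e', c, c', rfl⟩ := h
  refine ⟨e, e', ?_⟩
  have h1 := (((hz true).sign e).conj c.2).mul (((hz false).sign e').conj c'.2)
  cases e <;> cases e' <;> exact h1

theorem CW.lead {Z : Lg → UC a} {j : ℕ} {w : UC a} (h : CW Z j w) {ZI : Kl → Ideal R}
    {z : Lg → M2 R} (hz : ∀ l, Lead a (ZI l.1) (Z l) (z l)) : ∃ σ : ℕ → Bool × Bool,
      LeadS a (∏ t ∈ Finset.range (j + 1), ZI (cl t)) w (lb (fun t =>
        (if (σ t).1 then z (cl t, true) else -z (cl t, true)) +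
          if (σ t).2 then z (cl t, false) else -z (cl t, false)) j) := by
  induction h with
  | base y h =>
    obtain ⟨e, e', h1⟩ := h.lead (I := ZI (cl 0)) fun s => hz (cl 0, s)
    exact ⟨fun _ => (e, e'), Or.inl (by rw [Finset.prod_range_one]; exact h1)⟩
  | step j w y _ h ih =>
    obtain ⟨σ, h1⟩ := ih
    obtain ⟨e, e', h2⟩ := h.lead (I := ZI (cl (j + 1))) fun s => hz (cl (j + 1), s)
    refine ⟨Function.update σ (j + 1) (e, e'), ?_⟩
    rw [Finset.prod_range_succ, lb, Function.update_self,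
      lb_congr fun t ht => by rw [Function.update_of_ne (by omega)]]
    exact h1.cm h2
  | conj j w c _ ih => exact ih.imp fun σ h => h.imp (fun h => h.conj c.2) fun h => h.conj c.2
  | inv j w _ ih =>
    exact ih.imp fun σ h => h.symm.imp (fun h => neg_neg (lb _ j : M2 R) ▸ h.inv) fun h => h.inv

/-- the certificate for leading terms -/
theorem cert_lead [HasCert] {N : ℕ} (hN : 0 < N) {τ : Pt → Pt → (M2 R)ˣ} (h : FlatOn (K0 N) τ)
    (hH : ∀ p ∈ K0 N, ∀ q ∈ K0 N, τ p q ∈ UC a) (ZI : Kl → Ideal R) (z : Lg → M2 R)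
    (e : Lg → Bool)
    (hz : ∀ l, ∃ x n, Around (Face N l) (e l) x n ∧ Lead a (ZI l.1) (holN τ x n) (z l))
    {x : ℕ → Pt} {n : ℕ} (hx : Around (Side N) true x n) (h1 : holN τ x n = 1) :
    ∃ σ : Lg → Bool, InC (a * prK ZI) (lbK fun i =>
      (if σ (i, true) then z (i, true) else -z (i, true)) +
        if σ (i, false) then z (i, false) else -z (i, false)) := by
  classical
  obtain ⟨Z, w, hZ, hγ, hw⟩ := cert_sub hN h (UC a) hH
  have hl : ∀ l, Lead a (ZI l.1) (Z l) (if e l then z l else -z l) := fun l => by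
    obtain ⟨x, n, h2, h3⟩ := hz l
    obtain ⟨c, hc, h4⟩ := hZ l _ x n h2
    exact h3.of_conj hc h4
  obtain ⟨σ, h2⟩ := hw.lead hl
  obtain ⟨c, -, h3⟩ := hγ true x n hx
  rw [h1, if_pos rfl, eq_mul_inv_iff_mul_eq, one_mul, left_eq_mul] at h3
  have h4 : ∀ y : M2 R, LeadS a (prK ZI) w y → InC (a * prK ZI) y := by
    rintro y (h5 | h5)
    · have h6 := h5.app.neg
      rwa [h3, Units.val_one, sub_self, zero_sub, neg_neg] at h6
    · have h6 := h5.app
      rwa [h3, Units.val_one, sub_self, zero_sub, neg_neg] at h6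
  let ix : Kl → ℕ := fun i => if h : ∃ t ≤ Geom.r, cl t = i then h.choose else 0
  have hix : ∀ t ≤ Geom.r, ix (cl t) = t := fun t ht => by
    have h5 : ∃ t' ≤ Geom.r, cl t' = cl t := ⟨t, ht, rfl⟩
    simp only [ix, dif_pos h5]
    exact cl_inj h5.choose_spec.1 ht h5.choose_spec.2
  refine ⟨fun l => (if l.2 then (σ (ix l.1)).1 else (σ (ix l.1)).2) == e l, ?_⟩
  rw [lbK, lb_congr (z' := _) fun t ht => ?_]
  · exact h4 _ h2
  · simp only [hix t ht, if_true, Bool.false_eq_true, if_false]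
    cases (σ t).1 <;> cases (σ t).2 <;> cases e (cl t, true) <;> cases e (cl t, false) <;> simp

end lead

end Vale.Agent.P215Z.K.Cert
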