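import Vale.Agent.P260Z.Ob.Cert.Lay
import Vale.Agent.P260Z.Ob.Cert.Lead
import Vale.Agent.P260Z.Ob.Inst
import Vale.Agent.P215Z.Coh.Out

/-!
# P260, obstruction: the periodic layout has a certificate
-/

noncomputable section
set_option linter.unusedSectionVars false

namespace Vale.Agent.P260Z.Ob.Cyc

open Set Vale.Agent.P215Z

variable {G : Type} [Group G] {N : ℕ} {τ : Pt → Pt → G}

section conv
variable [K.Geom]

theorem flat_conv {X : Set Pt} (h : K.Cert.FlatOn X τ) : Cert.FlatOn X τ := ⟨h.refl, h.back, h.sq⟩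

theorem holIs_conv {S : Fin 4 → Set Pt} {z : G} (h : Cert.HolIs τ S z) : K.Cert.HolIs τ S z :=
  fun e x n ⟨s0, hx⟩ => h e x n ⟨s0, hx.adj, hx.closed, hx.pieces⟩

theorem exists_hol (hN : 0 < N) (h : K.Cert.FlatOn (K.Cert.K0 N) τ) (l : K.Lg) :
    ∃ z, K.Cert.HolIs τ (K.Cert.Face N l) z := by
  choose T hT using fun s => K.Cert.root hN h _ (K.Cert.faceBox_good l s)
  choose w hw using fun s => K.Cert.gen (hT s) (hT (s + 1))
  refine ⟨w 0 * w 1 * w 2 * w 3, K.Cert.HolIs.mono (fun s => K.Cert.Face_sub N l s)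
    (K.Cert.four (hT 0) (hT 1) (hT 2) (hT 3) (hw 0) (hw 1) (hw 2) (hw 3) ?_) rfl⟩
  have key : ∀ s, K.Cert.SubB (K.Cert.faceB l s) (K.Cert.faceBox l s) := fun s j => by
    simp only [K.Cert.faceBox, K.Cert.faceB]
    split_ifs <;> omega
  exact ⟨key 0, key 1, key 2, key 3⟩

theorem cw_cj {Z : K.Lg → G} {j : ℕ} {w w' : G} (h : K.Cert.CW Z j w) (hc : Cj w w') :
    K.Cert.CW Z j w' := by
  obtain ⟨c, rfl | rfl⟩ := hc
  exacts [h.conj _ _ c, (h.inv _ _).conj _ _ c]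

theorem isY_of {Z : K.Lg → G} {i : K.Kl} {w : G} (h : Pr (Z (i, true)) (Z (i, false)) w) :
    K.Cert.IsY Z i w := by
  obtain ⟨a, b, ⟨c, rfl | rfl⟩, ⟨c', rfl | rfl⟩, rfl⟩ := h
  exacts [⟨true, true, c, c', rfl⟩, ⟨true, false, c, c', rfl⟩, ⟨false, true, c, c', rfl⟩,
    ⟨false, false, c, c', rfl⟩]

theorem cw_of {Z : K.Lg → G} {W : K.Kl → G} {L : List K.Kl} {g : G} (h : Tow W L g)
    (hW : ∀ i ∈ L, K.Cert.IsY Z i (W i)) (j : ℕ)
    (hL : L = ((List.range (j + 1)).map K.cl).reverse) : K.Cert.CW Z j g := by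
  induction h generalizing j with
  | one i g h =>
    obtain rfl : j = 0 := by simpa using congrArg List.length hL
    obtain rfl : i = K.cl 0 := by simpa using hL
    exact cw_cj (K.Cert.CW.base _ (hW _ (by simp))) h
  | cons i i' L u g _ h ih =>
    obtain ⟨j, rfl⟩ : ∃ t, j = t + 1 := ⟨j - 1, by
      have := congrArg List.length hL
      simp at this
      omega⟩
    rw [List.range_succ, List.map_append, List.reverse_append] at hL
    obtain ⟨rfl, e⟩ := List.cons.inj hL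
    exact cw_cj (K.Cert.CW.step _ _ _ (ih (fun i hi => hW i (List.mem_cons_of_mem _ hi)) j e)
      (hW _ (by simp))) h

end conv

theorem good_conv {n m : ℕ} (h : m + 1 ≤ n) (hN : 0 < N) (B : Pt × Pt) (hB : Good (n + 1) B) :
    Cert.cB N B ⊆ @K.Cert.K0 (Lay.geom n m h) N := by
  intro p hp
  obtain ⟨q, hq, hpq⟩ := Cert.exists_cube hN (fun j => (hB.1 j).2.1) hp
  refine ⟨q, ⟨⟨Coh.Outx.inBox_mono hq fun j => ⟨(hB.1 j).1, (hB.1 j).2.2⟩,
    Lay.cv_inBox.2 fun c hc h => Coh.Outx.not_both hq h (hB.2.1 c hc)⟩,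
    fun l h => Coh.Outx.not_both hq h (hB.2.2 l)⟩, hpq⟩

/-- The periodic layout has a certificate. -/
theorem hasCert (n m : ℕ) (h : m + 1 ≤ n) : @K.Cert.HasCert (Lay.geom n m h) := by
  let _ := Lay.geom n m h
  refine ⟨fun G _ N τ hN hf => ?_⟩
  classical
  obtain ⟨Z, W, g, h1, h2, h3⟩ :=
    cert_lay (k := n + 1) (m := m) (by omega) (flat_conv hf) (good_conv h hN)
  choose Z0 hZ0 using exists_hol hN hf
  refine ⟨fun l => if l.1 ∈ (List.finRange (n + 1)).drop (m + 1) then Z l else Z0 l, g,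
    fun l => ?_, holIs_conv h3, cw_of h2 (fun i hi => isY_of ?_) _ ?_⟩
  · beta_reduce
    split_ifs with hl
    · exact K.Cert.HolIs.mono (K.Cert.Face_sub N l) (holIs_conv ((h1 l.1 hl).1 l.2)) rfl
    · exact hZ0 l
  · simpa only [if_pos hi] using (h1 i hi).2
  · show _ = ((List.range (n - (m + 1) + 1)).map fun j => (⟨n - j, by omega⟩ : Fin (n + 1))).reverse
    refine List.ext_getElem (by simp; omega) fun t a b => Fin.ext ?_
    simp at a b ⊢
    omega

end Vale.Agent.P260Z.Ob.Cyc
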