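import Vale.Agent.P260Z.Ob.Cert.Cyc

/-!
# P260, certificate: iterated commutators and their leading terms
-/

noncomputable section

namespace Vale.Agent.P260Z.Ob.Cyc

open Set Vale.Agent.P215Z Vale.Agent.P215Z.Cert

variable {G ι : Type} [Group G]

/-- `w` is a product of conjugates of `a`, `b` or of their inverses -/
def Pr (a b w : G) : Prop := ∃ a' b', Cj a a' ∧ Cj b b' ∧ w = a' * b'

/-- `g` is an iterated commutator of the `W i`, up to conjugations and inversions; the last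
colour of the list is the innermost one -/
inductive Tow (W : ι → G) : List ι → G → Prop
  | one (i : ι) (g : G) (h : Cj (W i) g) : Tow W [i] g
  | cons (i j : ι) (L : List ι) (u g : G) (hu : Tow W (j :: L) u) (h : Cj (cm u (W i)) g) :
      Tow W (i :: j :: L) g

theorem Tow.cj {W : ι → G} {L : List ι} {g g' : G} (h : Tow W L g) (hc : Cj g g') :
    Tow W L g' := by
  cases h with
  | one i _ h => exact Tow.one i _ (h.trans hc)
  | cons i j L u _ hu h => exact Tow.cons i j L u _ hu (h.trans hc)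

/-- the iterated bracket; the last colour of the list is the innermost one -/
def brL {M : Type} [Zero M] [Bracket M M] (ζ : ι → M) : List ι → M
  | [] => 0
  | [i] => ζ i
  | i :: j :: L => ⁅brL ζ (j :: L), ζ i⁆

variable {R : Type} [CommRing R] {a : Ideal R}

theorem Pr.lead {I : Ideal R} {u v w : UC a} {z y : M2 R} (h : Pr u v w) (hu : LeadS a I u z)
    (hv : LeadS a I v y) : ∃ ε : ℤ, (ε = 1 ∨ ε = -1) ∧ LeadS a I w (z + ε • y) := by
  obtain ⟨u', v', h1, h2, rfl⟩ := h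
  exact (hu.cj h1).mul (hv.cj h2)

theorem Tow.lead {W : ι → UC a} {L : List ι} {g : UC a} (h : Tow W L g) (I : ι → Ideal R)
    (ζ : ι → M2 R) (hW : ∀ i ∈ L, LeadS a (I i) (W i) (ζ i)) :
    LeadS a (L.map I).prod g (brL ζ L) := by
  induction h with
  | one i g h => simpa [brL] using (hW i (by simp)).cj h
  | cons i j L u g _ h ih =>
    have h1 := ((ih fun i hi => hW i (List.mem_cons_of_mem _ hi)).cm (hW i (by simp))).cj h
    rwa [mul_comm] at h1

/-- the output of the certificate -/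
def Cert (τ : Pt → Pt → G) (F : ι × Bool → Fin 4 → Set Pt) (S : Fin 4 → Set Pt) (L : List ι) :
    Prop :=
  ∃ (Z : ι × Bool → G) (W : ι → G) (g : G), (∀ i ∈ L, (∀ s, HolIs τ (F (i, s)) (Z (i, s))) ∧
    Pr (Z (i, true)) (Z (i, false)) (W i)) ∧ Tow W L g ∧ HolIs τ S g

theorem HolIs.leadS {τ : Pt → Pt → UC a} {S : Fin 4 → Set Pt} {Z : UC a} (h : HolIs τ S Z)
    {e : Bool} {x : ℕ → Pt} {n : ℕ} (hx : Around S e x n) : Cj Z (holN τ x n) := by
  obtain ⟨c, hc⟩ := h e x n hx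
  cases e
  exacts [⟨c, Or.inr hc⟩, ⟨c, Or.inl hc⟩]

/-- the certificate for leading terms -/
theorem cert_lead {K : Set Pt} {F : ι × Bool → Fin 4 → Set Pt} {S : Fin 4 → Set Pt} {L : List ι}
    (hc : ∀ τ' : Pt → Pt → UC a, FlatOn K τ' → Cert τ' F S L) (hF : ∀ l s, F l s ⊆ K)
    (hS : ∀ s, S s ⊆ K) {τ : Pt → Pt → (M2 R)ˣ} (h : FlatOn K τ)
    (hH : ∀ p ∈ K, ∀ q ∈ K, τ p q ∈ UC a) (ZI : ι → Ideal R) (z : ι × Bool → M2 R)
    (hz : ∀ l, ∃ e x n, Around (F l) e x n ∧ Lead a (ZI l.1) (holN τ x n) (z l))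
    {e : Bool} {x : ℕ → Pt} {n : ℕ} (hx : Around S e x n) (h1 : holN τ x n = 1) :
    ∃ ε : ι → ℤ, (∀ i, ε i = 1 ∨ ε i = -1) ∧
      InC (a * (L.map ZI).prod) (brL (fun i => z (i, true) + ε i • z (i, false)) L) := by
  classical
  let τ' : Pt → Pt → UC a := fun p q =>
    if hpq : p ∈ K ∧ q ∈ K then ⟨τ p q, hH p hpq.1 q hpq.2⟩ else 1
  have e0 : ∀ p ∈ K, ∀ q ∈ K, (τ' p q : (M2 R)ˣ) = τ p q := fun p hp q hq => by
    simp only [τ', dif_pos (And.intro hp hq)]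
  have h' : FlatOn K τ' := by
    refine ⟨fun p hp => Subtype.ext ?_, fun p hp k hk => Subtype.ext ?_,
      fun p k l hkl h1 h2 h3 h4 => Subtype.ext ?_⟩
    · rw [e0 p hp p hp, h.refl p hp]; rfl
    · rw [Subgroup.coe_inv, e0 _ hk _ hp, e0 _ hp _ hk, h.back p hp k hk]
    · rw [Subgroup.coe_mul, Subgroup.coe_mul, e0 _ h1 _ h2, e0 _ h2 _ h4, e0 _ h1 _ h3,
        e0 _ h3 _ h4]
      exact h.sq p k l hkl h1 h2 h3 h4
  have key : ∀ {S : Fin 4 → Set Pt} {e x n}, (∀ s, S s ⊆ K) → Around S e x n →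
      ((holN τ' x n : UC a) : (M2 R)ˣ) = holN τ x n := fun {S e x n} hS hx =>
    (hom_holN (UC a).subtype τ' x n).trans (holN_congr' x n fun k hk =>
      e0 _ (hx.mem hS k (by omega)) _ (hx.mem hS (k + 1) (by omega)))
  obtain ⟨Z, W, g, h2, h3, h4⟩ := hc τ' h'
  have hl : ∀ i ∈ L, ∀ s, LeadS a (ZI i) (Z (i, s)) (z (i, s)) := fun i hi s => by
    obtain ⟨e, x, n, h5, h6⟩ := hz (i, s)
    have h7 : LeadS a (ZI i) (holN τ' x n) (z (i, s)) := Or.inl (by rwa [key (hF _) h5])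
    exact h7.cj (HolIs.leadS ((h2 i hi).1 s) h5).symm
  have hε : ∀ i, ∃ ε : ℤ, (ε = 1 ∨ ε = -1) ∧
      (i ∈ L → LeadS a (ZI i) (W i) (z (i, true) + ε • z (i, false))) := fun i => by
    by_cases hi : i ∈ L
    · obtain ⟨ε, a1, a2⟩ := (h2 i hi).2.lead (hl i hi true) (hl i hi false)
      exact ⟨ε, a1, fun _ => a2⟩
    · exact ⟨1, Or.inl rfl, fun h => absurd h hi⟩
  choose ε hε1 hε2 using hε
  have h5 := (h3.lead ZI _ hε2).cj (HolIs.leadS h4 hx)
  rw [show holN τ' x n = 1 from Subtype.ext ((key hS hx).trans h1)] at h5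
  exact ⟨ε, hε1, h5.one⟩

end Vale.Agent.P260Z.Ob.Cyc
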