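import Vale.Agent.P260Z.Ob.Cert.Blk
import Vale.Agent.P260Z.Ob.Cert.Tow
import Vale.Agent.P260Z.Lay

/-!
# P260, certificate for the periodic layout
-/

noncomputable section

namespace Vale.Agent.P260Z.Ob.Cyc

open Set Vale.Agent.P215Z Vale.Agent.P215Z.Cert

/-- the interiors of the two boxes are disjoint -/
def Off (B c : Pt × Pt) : Prop := ∃ j, B.2 j ≤ c.1 j ∨ c.2 j ≤ B.1 j

instance (B c : Pt × Pt) : Decidable (Off B c) := by unfold Off; infer_instance

/-- boxes of the chart which avoid all caves and all cubes -/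
def Good (k : ℕ) (B : Pt × Pt) : Prop :=
  (∀ j, 0 ≤ B.1 j ∧ B.1 j < B.2 j ∧ B.2 j ≤ Lay.boxHi k j) ∧ (∀ c ∈ Lay.caves k, Off B c) ∧
    ∀ l, ∃ j, B.2 j ≤ Lay.org k l j ∨ Lay.org k l j + 3 ≤ B.1 j

/-- the translation to the level `i` -/
def lv (i : ℤ) : Pt := ![0, 0, 18 * i, 0]

theorem Off.sh {B c : Pt × Pt} (h : Off B c) (m : Pt) : Off (shB m B) (shB m c) := by
  obtain ⟨j, h⟩ := h
  exact ⟨j, by simpa [shB] using h⟩

theorem bx_sh (i d x x' y y' z z' : ℤ) :
    Lay.bx (i + d) x x' y y' z z' = shB (lv i) (Lay.bx d x x' y y' z z') := by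
  refine Prod.ext (funext fun j => ?_) (funext fun j => ?_) <;> fin_cases j <;>
    simp [Lay.bx, shB, lv] <;> ring

/-- a cube, as a box -/
def cub (d : ℤ) (s : Bool) : Pt × Pt :=
  Lay.bx d 2 5 7 10 (if s then 10 else 6) (if s then 13 else 9)

/-- the obstacles of the level `d`, without the beam which closes or opens the ring -/
def obs (d : ℤ) : List (Pt × Pt) := cub d true :: cub d false :: Lay.tree d

theorem obs_sh (i d : ℤ) : obs (i + d) = (obs d).map (shB (lv i)) := by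
  simp only [obs, cub, Lay.tree, List.map_cons, List.map_nil, bx_sh]

/-- the conditions on a box relative to its level -/
def RelG (O : List (Pt × Pt)) (B : Pt × Pt) : Prop :=
  (∀ j, ![0, 0, -2, 0] j ≤ B.1 j ∧ B.1 j < B.2 j ∧ B.2 j ≤ ![17, 17, 18, 3] j) ∧ ∀ c ∈ O, Off B c

instance (O : List (Pt × Pt)) (B : Pt × Pt) : Decidable (RelG O B) := by
  unfold RelG; infer_instance

theorem far {O : List (Pt × Pt)} {B : Pt × Pt} (h : RelG O B) {d : ℤ} (hd : d ≤ -2 ∨ 2 ≤ d) :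
    (∀ c ∈ obs d, Off B c) ∧ Off B (Lay.clo d) ∧ Off B (Lay.top d) := by
  have h1 := h.1 2
  simp only [Matrix.cons_val] at h1
  have key : ∀ x x' y y' z z' : ℤ, -15 ≤ z → z' ≤ 14 → Off B (Lay.bx d x x' y y' z z') :=
    fun x x' y y' z z' a b => ⟨2, by simp only [Lay.bx, Matrix.cons_val]; omega⟩
  refine ⟨fun c hc => ?_, key _ _ _ _ _ _ (by omega) (by omega),
    key _ _ _ _ _ _ (by omega) (by omega)⟩
  simp only [obs, cub, Lay.tree, List.mem_cons, List.not_mem_nil, or_false] at hc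
  rcases hc with rfl | rfl | rfl | rfl | rfl | rfl | rfl | rfl <;>
    exact key _ _ _ _ _ _ (by simp) (by simp)

theorem good_of {k i : ℕ} (h1 : 1 ≤ i) (h2 : i < k) {O : List (Pt × Pt)} {B : Pt × Pt}
    (h : RelG O B) (ho : ∀ d : ℤ, -1 ≤ d → d ≤ 1 → i + d < k → (∀ c ∈ obs d, c ∈ O) ∧
      (i + d + 1 < k → Lay.clo d ∈ O) ∧ (i + d + 1 = k → Lay.top d ∈ O)) :
    Good k (shB (lv i) B) := by
  have key : ∀ t : ℕ, t < k → (∀ c ∈ obs t, Off (shB (lv i) B) c) ∧
      (t + 1 < k → Off (shB (lv i) B) (Lay.clo t)) ∧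
      (t + 1 = k → Off (shB (lv i) B) (Lay.top t)) := by
    intro t ht
    obtain ⟨d, hd⟩ : ∃ d : ℤ, (t : ℤ) = i + d := ⟨t - i, by ring⟩
    have e1 : Lay.clo (i + d) = shB (lv i) (Lay.clo d) := bx_sh ..
    have e2 : Lay.top (i + d) = shB (lv i) (Lay.top d) := bx_sh ..
    rw [hd, obs_sh, e1, e2, List.forall_mem_map]
    by_cases hf : d ≤ -2 ∨ 2 ≤ d
    · obtain ⟨a1, a2, a3⟩ := far h hf
      exact ⟨fun c hc => (a1 c hc).sh _, fun _ => a2.sh _, fun _ => a3.sh _⟩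
    · obtain ⟨a1, a2, a3⟩ := ho d (by omega) (by omega) (by omega)
      exact ⟨fun c hc => (h.2 c (a1 c hc)).sh _, fun e => (h.2 _ (a2 (by omega))).sh _,
        fun e => (h.2 _ (a3 (by omega))).sh _⟩
  refine ⟨fun j => ?_, fun c hc => ?_, fun l => ?_⟩
  · have := h.1 j
    simp only [shB, Pi.add_apply]
    fin_cases j <;> simp [lv, Lay.boxHi] at this ⊢ <;> omega
  · obtain ⟨t, ht, ⟨e, rfl⟩ | ⟨e, rfl⟩ | e⟩ := Lay.mem_caves.1 hc
    · exact (key t ht).2.1 e
    · exact (key t ht).2.2 e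
    · exact (key t ht).1 c (List.mem_cons_of_mem _ (List.mem_cons_of_mem _ e))
  · obtain ⟨j, hj⟩ := (key l.1 l.1.2).1 (cub l.1 l.2) (by
      cases l.2 <;> simp [obs])
    refine ⟨j, ?_⟩
    have e1 : (cub l.1 l.2).1 j = Lay.org k l j := rfl
    have e2 : (cub l.1 l.2).2 j = Lay.org k l j + 3 := by
      cases h : l.2 <;> fin_cases j <;> simp [cub, Lay.bx, Lay.org, h] <;> ring
    rwa [e1, e2] at hj

theorem good_blk {k i : ℕ} (h1 : 1 ≤ i) (h2 : i + 1 < k) : ∀ B ∈ kL, Good k (shB (lv i) B) := by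
  have h : ∀ B ∈ kL, RelG (obs (-1) ++ obs 0 ++ obs 1 ++
    [Lay.clo (-1), Lay.clo 0, Lay.clo 1, Lay.top 1]) B := by decide
  refine fun B hB => good_of h1 (by omega) (h B hB) fun d a b c => ?_
  have : d = -1 ∨ d = 0 ∨ d = 1 := by omega
  rcases this with rfl | rfl | rfl <;>
    refine ⟨fun c hc => by simp [hc], fun e => by simp, fun e => ?_⟩
  · omega
  · omega
  · simp

theorem good_top {k i : ℕ} (h1 : 1 ≤ i) (h2 : i + 1 = k) : ∀ B ∈ tL, Good k (shB (lv i) B) := by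
  have h : ∀ B ∈ tL, RelG (obs (-1) ++ obs 0 ++ [Lay.clo (-1), Lay.top 0]) B := by decide
  refine fun B hB => good_of h1 (by omega) (h B hB) fun d a b c => ?_
  have : d = -1 ∨ d = 0 := by omega
  rcases this with rfl | rfl <;> refine ⟨fun c hc => by simp [hc], fun e => ?_, fun e => ?_⟩
  · simp
  · omega
  · omega
  · simp

theorem fB_sh (k : ℕ) (i : Fin k) (b : Bool) :
    (fun s => shB (lv (i : ℕ)) ((if b then fT else fF) s)) = fB (Lay.org k (i, b)) := by
  have key : ∀ o m : Pt, (fun s => shB m (fB o s)) = fB (o + m) := fun o m => by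
    funext s
    refine Prod.ext (funext fun j => ?_) (funext fun j => ?_) <;>
      simp only [shB, fB, Pi.add_apply] <;> split_ifs <;> ring
  cases b <;> simp only [fT, fF, if_true, Bool.false_eq_true, if_false, key] <;> congr 1 <;>
    funext j <;> fin_cases j <;> simp [lv, Lay.org] <;> ring

theorem up_sh (i : ℤ) : (fun s => shB (lv i) (up s)) = fun s => shB (lv (i + 1)) (dn s) := by
  funext s
  refine Prod.ext (funext fun j => ?_) (funext fun j => ?_) <;> fin_cases s <;>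
    fin_cases j <;> simp [shB, lv, up, dn, bx] <;> ring

theorem side_sh (m : ℕ) : Lay.side m = fun s => shB (lv ((m + 1 : ℕ) : ℤ)) (dn s) := by
  funext s
  refine Prod.ext (funext fun j => ?_) (funext fun j => ?_) <;> fin_cases s <;>
    fin_cases j <;> simp [shB, lv, Lay.side, Lay.bx, dn, bx] <;> ring

theorem meet_dn (i : ℤ) (s : Fin 4) :
    Meet (shB (lv i) (dn s)) (shB (lv i) (dn (s + 1))) (shB (lv i) (dn (s + 1))) := by
  have h : ∀ s, Meet (dn s) (dn (s + 1)) (dn (s + 1)) := by decide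
  intro j
  have := h s j
  simp only [shB, Pi.add_apply]
  omega

variable {G : Type} [Group G] {N : ℕ} {τ : Pt → Pt → G} {K : Set Pt}

theorem level {k : ℕ} (h : FlatOn K τ) (hK : ∀ B, Good k B → cB N B ⊆ K) (i : Fin k) :
    ∃ a b w g : G, 1 ≤ (i : ℕ) → Cy4 N τ (fB (Lay.org k (i, true))) a ∧
      Cy4 N τ (fB (Lay.org k (i, false))) b ∧ Pr a b w ∧
      Cy4 N τ (fun s => shB (lv (i : ℕ)) (dn s)) g ∧ ((i : ℕ) + 1 = k → Cj w g) ∧
      ((i : ℕ) + 1 < k → ∃ u u', Cy4 N τ (fun s => shB (lv ((i + 1 : ℕ) : ℤ)) (dn s)) u ∧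
        Cj u u' ∧ Cj (cm u' w) g) := by
  by_cases h1 : 1 ≤ (i : ℕ)
  swap
  · exact ⟨1, 1, 1, 1, fun h => absurd h h1⟩
  have hf := flatOn_sh h ((2 * N : ℤ) • lv (i : ℕ))
  rcases (show (i : ℕ) + 1 < k ∨ (i : ℕ) + 1 = k by omega) with h2 | h2
  · obtain ⟨a, b, u, g, c1, c2, c3, c4, a', b', u', d1, d2, d3, d4⟩ :=
      block hf fun B hB => sub_sh (hK _ (good_blk h1 h2 B hB))
    refine ⟨a, b, a' * b', g, fun _ => ⟨fB_sh k i true ▸ c1.sh, fB_sh k i false ▸ c2.sh,
      ⟨a', b', d1, d2, rfl⟩, c4.sh, fun e => by omega, fun _ => ⟨u, u', ?_, d3, d4⟩⟩⟩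
    have := c3.sh
    rwa [up_sh] at this
  · obtain ⟨a, b, g, c1, c2, c4, a', b', d1, d2, d4⟩ :=
      top hf fun B hB => sub_sh (hK _ (good_top h1 h2 B hB))
    exact ⟨a, b, a' * b', g, fun _ => ⟨fB_sh k i true ▸ c1.sh, fB_sh k i false ▸ c2.sh,
      ⟨a', b', d1, d2, rfl⟩, c4.sh, fun _ => d4, fun e => by omega⟩⟩

/-- The certificate: the loop around the stem above the ring `m` is an iterated commutator of
the meridians of the rings `m + 1, ..., k - 1`. -/
theorem cert_lay {k m : ℕ} (hm : m + 2 ≤ k) (h : FlatOn K τ) (hK : ∀ B, Good k B → cB N B ⊆ K) :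
    Cert τ (fun l s => cB N (fB (Lay.org k l) s)) (fun s => cB N (Lay.side m s))
      ((List.finRange k).drop (m + 1)) := by
  choose a b w g H using level h hK
  have key : ∀ (d : ℕ) (i : Fin k), 1 ≤ (i : ℕ) → i + d + 1 = k →
      ∃ L, (List.finRange k).drop i = i :: L ∧ Tow w (i :: L) (g i) := by
    intro d
    have e : ∀ i : Fin k, (List.finRange k).drop i = i :: (List.finRange k).drop (i + 1) :=
      fun i => by rw [List.drop_eq_getElem_cons (by simp)]; simp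
    induction d with
    | zero =>
      intro i h1 h2
      refine ⟨[], ?_, Tow.one _ _ ((H i h1).2.2.2.2.1 h2)⟩
      rw [e, List.drop_of_length_le (by simp; omega)]
    | succ d ih =>
      intro i h1 h2
      obtain ⟨L, e1, t1⟩ := ih ⟨i + 1, by omega⟩ (by simp) (by simp; omega)
      obtain ⟨u, u', c1, c2, c3⟩ := (H i h1).2.2.2.2.2 (by omega)
      have c4 := (H ⟨i + 1, by omega⟩ (by simp)).2.2.2.1
      exact ⟨_, (e i).trans (congrArg _ e1), Tow.cons _ _ L u' _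
        (t1.cj ((c4.cj c1 (meet_dn _)).trans c2)) c3⟩
  obtain ⟨L, e1, t1⟩ := key (k - m - 2) ⟨m + 1, by omega⟩ (by simp) (by simp; omega)
  refine ⟨fun l => if l.2 then a l.1 else b l.1, w, g ⟨m + 1, by omega⟩, fun i hi => ?_,
    e1 ▸ t1, ?_⟩
  · have h1 : 1 ≤ (i : ℕ) := by
      obtain ⟨n, hn, rfl⟩ := List.mem_iff_getElem.1 hi
      simp
      omega
    refine ⟨fun s => ?_, (H i h1).2.2.1⟩
    cases s
    exacts [(H i h1).2.1.holIs, (H i h1).1.holIs]
  · rw [side_sh]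
    exact (H ⟨m + 1, by omega⟩ (by simp)).2.2.2.1.holIs

theorem good_side {k m : ℕ} (hm : m + 2 ≤ k) (s : Fin 4) : Good k (Lay.side m s) := by
  have h : ∀ s, RelG (obs (-1) ++ obs 0 ++ obs 1 ++
    [Lay.clo (-1), Lay.clo 0, Lay.clo 1, Lay.top 0, Lay.top 1]) (dn s) := by decide
  rw [side_sh]
  refine good_of (by omega) (by omega) (h s) fun d a b c => ?_
  have : d = -1 ∨ d = 0 ∨ d = 1 := by omega
  rcases this with rfl | rfl | rfl <;>
    refine ⟨fun c hc => by simp [hc], fun e => by simp, fun e => ?_⟩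
  · omega
  · simp
  · simp

end Vale.Agent.P260Z.Ob.Cyc
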