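import Vale.Agent.P260Z.Ob.Cert.Reg

/-!
# P260, obstruction, certificate: the boundary loop is an iterated commutator of the meridians
-/

noncomputable section
set_option linter.unusedSectionVars false
variable [Vale.Agent.P215Z.K.Geom]

namespace Vale.Agent.P215Z.K.Cert

open Set

variable {G : Type} [Group G] {N : ℕ} {τ : Pt → Pt → G}

/-- the group commutator -/
def cm (x y : G) : G := x * y * x⁻¹ * y⁻¹

/-- every loop around the four sets has holonomy conjugate to `z`, or its inverse -/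
def HolIs (τ : Pt → Pt → G) (S : Fin 4 → Set Pt) (z : G) : Prop :=
  ∀ e x n, Around S e x n → ∃ c, holN τ x n = c * (if e then z else z⁻¹) * c⁻¹

theorem Loop5.mono {S S' : Fin 4 → Set Pt} (h : ∀ s, S s ⊆ S' s) {x : ℕ → Pt} {n : ℕ}
    (hx : Loop5 S x n) : Loop5 S' x n := by
  obtain ⟨n1, n2, n3, n4, h12, h23, h34, h4, p0, p1, p2, p3, p4⟩ := hx.pieces
  exact ⟨hx.adj, hx.closed, n1, n2, n3, n4, h12, h23, h34, h4, fun k a => h _ (p0 k a),
    fun k a b => h _ (p1 k a b), fun k a b => h _ (p2 k a b), fun k a b => h _ (p3 k a b),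
    fun k a b => h _ (p4 k a b)⟩

theorem HolIs.mono {S S' : Fin 4 → Set Pt} (h : ∀ s, S s ⊆ S' s) {z z' : G}
    (hz : HolIs τ S' z) (e : z = z') : HolIs τ S z' :=
  fun b x n ⟨s0, hx⟩ => e ▸ hz b x n ⟨s0, hx.mono fun _ => h _⟩

theorem four {S : Fin 4 → Pt × Pt} {A0 A1 A2 A3 : Pt × Pt} {T0 T1 T2 T3 : Pt → G}
    (h0 : Triv τ (cB N A0) T0) (h1 : Triv τ (cB N A1) T1) (h2 : Triv τ (cB N A2) T2)
    (h3 : Triv τ (cB N A3) T3) {w0 w1 w2 w3 : G} (r0 : Rel (cB N A0) (cB N A1) T0 T1 w0)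
    (r1 : Rel (cB N A1) (cB N A2) T1 T2 w1) (r2 : Rel (cB N A2) (cB N A3) T2 T3 w2)
    (r3 : Rel (cB N A3) (cB N A0) T3 T0 w3)
    (hs : SubB (S 0) A0 ∧ SubB (S 1) A1 ∧ SubB (S 2) A2 ∧ SubB (S 3) A3) :
    HolIs τ (fun s => cB N (S s)) (w0 * w1 * w2 * w3) := by
  have m0 := cB_mono N hs.1
  have m1 := cB_mono N hs.2.1
  have m2 := cB_mono N hs.2.2.1
  have m3 := cB_mono N hs.2.2.2
  intro e x n h
  refine Around.hol (T := ![T0, T1, T2, T3]) (w := ![w0, w1, w2, w3]) (fun s => ?_)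
    (fun s => ?_) h
  · fin_cases s
    exacts [h0.mono m0, h1.mono m1, h2.mono m2, h3.mono m3]
  · fin_cases s
    exacts [r0.mono m0 m1, r1.mono m1 m2, r2.mono m2 m3, r3.mono m3 m0]

/-- `y` is a product of conjugates of the two meridians of the colour `i`, or of their inverses -/
def IsY (Z : Lg → G) (i : Kl) (y : G) : Prop :=
  ∃ (e e' : Bool) (c c' : G), y = c * (if e then Z (i, true) else (Z (i, true))⁻¹) * c⁻¹ *
    (c' * (if e' then Z (i, false) else (Z (i, false))⁻¹) * c'⁻¹)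

/-- left normed commutator words in the colours `cl 0, …, cl j` -/
inductive CW (Z : Lg → G) : ℕ → G → Prop
  | base (y : G) (h : IsY Z (cl 0) y) : CW Z 0 y
  | step (j : ℕ) (w y : G) (h : CW Z j w) (h' : IsY Z (cl (j + 1)) y) : CW Z (j + 1) (cm w y)
  | conj (j : ℕ) (w c : G) (h : CW Z j w) : CW Z j (c * w * c⁻¹)
  | inv (j : ℕ) (w : G) (h : CW Z j w) : CW Z j w⁻¹

/-- The certificate: the root loop is an iterated commutator of the meridians. -/
class HasCert : Prop where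
  cert : ∀ (G : Type) [Group G] (N : ℕ) (τ : Pt → Pt → G), 0 < N → FlatOn (K0 N) τ →
    ∃ (Z : Lg → G) (w : G), (∀ l, HolIs τ (Face N l) (Z l)) ∧ HolIs τ (Side N) w ∧ CW Z Geom.r w

end Vale.Agent.P215Z.K.Cert
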